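import Crest.Agent.R086.K.Lin

open MeasureTheory Set Filter Topology
open scoped ContDiff ComplexConjugate ENNReal
open Crest.AnalysisR.PDE.NLS

namespace Crest.Agent.R086.K

open Crest.Agent.R086.E

noncomputable section

/-! # The a priori estimate -/

variable {n : ℕ} {b : ℝ} {q : ℝ → ℂ}

/-- continuous induction -/
theorem bootstrap {N : ℝ → ℝ} {T M : ℝ} (hM : 0 < M) (hc : ContinuousOn N (Icc 0 T))
    (h0 : N 0 ≤ 2 * M) (hs : ∀ t ∈ Icc 0 T, (∀ s ∈ Icc 0 t, N s ≤ 3 * M) → N t ≤ 2 * M) :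
    ∀ t ∈ Icc 0 T, N t ≤ 2 * M := by
  have hA : IsCompact (Icc 0 T ∩ N ⁻¹' Ici (3 * M)) :=
    isCompact_Icc.of_isClosed_subset (hc.preimage_isClosed_of_isClosed isClosed_Icc isClosed_Ici)
      inter_subset_left
  rcases (Icc 0 T ∩ N ⁻¹' Ici (3 * M)).eq_empty_or_nonempty with he | hne
  · refine fun t ht => hs t ht fun s hs' => ?_
    by_contra h
    exact (he ▸ ⟨⟨hs'.1, hs'.2.trans ht.2⟩, (not_le.1 h).le⟩ : s ∈ (∅ : Set ℝ))
  · obtain ⟨t₀, ⟨ht₀, h3⟩, hmin⟩ := hA.exists_isLeast hne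
    have h3' : 3 * M ≤ N t₀ := h3
    have hpos : 0 ≠ t₀ := by
      rintro rfl
      linarith
    have hsub : Ico 0 t₀ ⊆ Icc 0 T ∩ N ⁻¹' Iic (2 * M) := fun t ht => by
      have htT : t ∈ Icc 0 T := ⟨ht.1, ht.2.le.trans ht₀.2⟩
      refine ⟨htT, hs t htT fun s hs' => ?_⟩
      by_contra h
      have := hmin ⟨⟨hs'.1, hs'.2.trans htT.2⟩, (not_le.1 h).le⟩
      linarith [hs'.2, ht.2]
    have hcl := closure_minimal hsub (hc.preimage_isClosed_of_isClosed isClosed_Icc isClosed_Iic)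
    rw [closure_Ico hpos] at hcl
    have h2 : N t₀ ≤ 2 * M := (hcl ⟨ht₀.1, le_rfl⟩).2
    linarith

/-- `K = max 1 (C (1 / (1 - T))^C)`, `N t = (nrmT … (Pert 1 w t)).toReal` is finite and continuous
(`TorusStmt` part 2, `sol_lin`), `M = K δ`.  If `N ≤ 3 K δ ≤ 1` on `[0,t]`, the source is at most
`C' (9 K² + 1) δ² ≤ δ` (`src_le`), and `EnAt` (a) on `[0,t]` gives `N t ≤ 2 K δ`.  The sup bound:
`sup_le`, `norm_Zs`, `(1 - t)^a ≥ (1 - T)^a`. -/
theorem apriori (hS : SobStmt) (hU : UUStmt) (hQ : QuadStmt) (hT : TorusStmt) (hq : Prof n b q)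
    {k : ℕ} (hk : 80 ≤ k) {μ C : ℝ} (hC : 0 < C) (hE : EnAt n b q k μ C) {T : ℝ}
    (hT0 : T ∈ Ico (0 : ℝ) 1) : ∃ δT CT : ℝ, APB n b q k T δT CT := by
  obtain ⟨Cs, hCs, hsrc⟩ := src_le hU hQ hq hk
  obtain ⟨Cb, hCb, hsup⟩ := sup_le (n := n) (b := b) hS hk
  have hT1 : 0 < 1 - T := by linarith [hT0.2]
  obtain ⟨K, hK1, hKC⟩ : ∃ K : ℝ, 1 ≤ K ∧ C * (1 / (1 - T)) ^ C ≤ K :=
    ⟨_, le_max_left _ _, le_max_right _ _⟩
  have ha : 0 ≤ aa n := by unfold aa; positivity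
  have hP : 0 < (1 - T) ^ aa n := Real.rpow_pos_of_pos hT1 _
  have hQ1 : 0 < Cs * (9 * K ^ 2 + 1) := by positivity
  have hQ2 : 0 < Cb * (2 * K) / (1 - T) ^ aa n := by positivity
  have h3K : 1 / (3 * K) ≤ 1 := (div_le_one (by positivity)).2 (by linarith)
  refine ⟨min (1 / (3 * K)) (1 / (Cs * (9 * K ^ 2 + 1))),
    2 * K + Cs * (9 * K ^ 2 + 1) + Cb * (2 * K) / (1 - T) ^ aa n, by positivity,
    (min_le_left _ _).trans h3K, by linarith, fun δ h hh hδ hδT T' w hT' hw h0 => ?_⟩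
  have hδ0 : 0 < δ := hh.trans_le hδ
  have hδ1 : 3 * (K * δ) ≤ 1 := by
    have := (le_div_iff₀ (by positivity)).1 (hδT.trans (min_le_left _ _))
    linarith
  have hδ2 : Cs * (9 * K ^ 2 + 1) * δ ≤ 1 := by
    have := (le_div_iff₀ hQ1).1 (hδT.trans (min_le_right _ _))
    linarith
  have hh1 : h ∈ Icc (0 : ℝ) 1 := ⟨hh.le, hδ.trans (hδT.trans ((min_le_left _ _).trans h3K))⟩
  have hlt : ∀ t ∈ Icc 0 T', t < 1 := fun t ht => by linarith [ht.2, hT0.2]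
  have hlin := sol_lin hU hq k hh 1 hlt hw
  obtain ⟨hfin, hcont⟩ := hT.2 n b k h 0 T' _ hh (hT'.trans_lt hT0.2)
    (ck_mono hlin.reg (Nat.le_add_right k 2))
  have hA : nrmT n b k h 0 (Pert n b q h 1 w 0) ≤ ENNReal.ofReal δ := by
    rw [nrmT_zero, Pert_one]
    exact h0
  have hS' : ∀ s ∈ Icc 0 T', nrmT n b k h s (Pert n b q h 1 w s) ≤ ENNReal.ofReal (3 * (K * δ)) →
      nrmT n b k h s (fun y => ((1 - s : ℝ) : ℂ) * Src n b q h 1 w s y)
        ≤ ENNReal.ofReal (Cs * (9 * K ^ 2 + 1) * δ ^ 2) := fun s hs hB => by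
    refine (hsrc h hh1 s ⟨hs.1, hlt s hs⟩ w _ (by positivity) hδ1 (sol_smooth hw hs) (hw.per s hs)
      hB).trans (ENNReal.ofReal_le_ofReal ?_)
    have h2 : h ^ 2 ≤ δ ^ 2 := by gcongr
    calc Cs * ((3 * (K * δ)) ^ 2 + h ^ 2) ≤ Cs * ((3 * (K * δ)) ^ 2 + δ ^ 2) := by gcongr
      _ = _ := by ring
  intro t ht
  have h00 : (0 : ℝ) ∈ Icc 0 T' := ⟨le_rfl, ht.1.trans ht.2⟩
  have hKδ : δ ≤ K * δ := le_mul_of_one_le_left hδ0.le hK1
  have hN := bootstrap (M := K * δ) (by positivity) hcont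
    (((ENNReal.le_ofReal_iff_toReal_le (hfin 0 h00) hδ0.le).1 hA).trans (by linarith))
    (fun t ht hs => by
      have hsub : Icc 0 t ⊆ Icc 0 T' := Icc_subset_Icc_right ht.2
      have h1 := (hE h hh1 0 t le_rfl ht.1 (hlt t ht) _ _ (lin_mono hlin hsub) δ δ hδ0.le hδ0.le hA
        fun s hs' => (hS' s (hsub hs') ((ENNReal.le_ofReal_iff_toReal_le (hfin s (hsub hs'))
          (by positivity)).2 (hs s hs'))).trans (ENNReal.ofReal_le_ofReal (by nlinarith))).1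
      refine (ENNReal.le_ofReal_iff_toReal_le (hfin t ht) (by positivity)).1
        (h1.trans (ENNReal.ofReal_le_ofReal ?_))
      have h1t : 0 < 1 - t := by linarith [hlt t ht]
      have h2 : ((1 - 0) / (1 - t)) ^ C ≤ (1 / (1 - T)) ^ C := by
        rw [sub_zero]
        exact Real.rpow_le_rpow (by positivity)
          (one_div_le_one_div_of_le hT1 (by linarith [ht.2])) hC.le
      have h3 := (mul_le_mul_of_nonneg_left h2 hC.le).trans hKC
      calc C * ((1 - 0) / (1 - t)) ^ C * (δ + δ) ≤ K * (δ + δ) := by gcongr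
        _ = _ := by ring) t ht
  have hN' : nrmT n b k h t (Pert n b q h 1 w t) ≤ ENNReal.ofReal (2 * (K * δ)) :=
    (ENNReal.le_ofReal_iff_toReal_le (hfin t ht) (by positivity)).2 hN
  refine ⟨hN'.trans (ENNReal.ofReal_le_ofReal (by nlinarith)),
    (hS' t ht (hN'.trans (ENNReal.ofReal_le_ofReal (by nlinarith)))).trans
      (ENNReal.ofReal_le_ofReal (by gcongr; linarith)), fun y => ?_⟩
  have h1t : 0 < 1 - t := by linarith [hlt t ht]
  have h1 := hsup h hh1 t ⟨ht.1, hlt t ht⟩ _ _ (by positivity)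
    ((ck_mono hlin.reg (Nat.le_add_right k 2)).diff t ht) (hlin.per t ht) hN'
    ((Real.sqrt (1 - t))⁻¹ • y)
  rw [norm_Zs h1t, smul_smul, mul_inv_cancel₀ (Real.sqrt_pos.2 h1t).ne', one_smul, zero_add,
    Pert_one] at h1
  have h2 : (1 - T) ^ aa n ≤ (1 - t) ^ aa n :=
    Real.rpow_le_rpow hT1.le (by linarith [ht.2]) ha
  have h3 : ‖w t y - UU n b q h t y‖ ≤ Cb * (2 * K) / (1 - T) ^ aa n * δ := by
    rw [div_mul_eq_mul_div, le_div_iff₀ hP]
    nlinarith [norm_nonneg (w t y - UU n b q h t y)]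
  refine h3.trans ?_
  gcongr
  linarith

end

end Crest.Agent.R086.K
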