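import Crest.Agent.R086.K.Lin

open MeasureTheory Set Filter Topology
open scoped ContDiff ComplexConjugate ENNReal
open Crest.AnalysisR.PDE.NLS

namespace Crest.Agent.R086.K

open Crest.Agent.R086.E

noncomputable section

/-! # The iteration -/

variable {n : ℕ} {b : ℝ} {q : ℝ → ℂ} {k : ℕ} {τ₁ δ₀ C : ℝ}

/-- One step.  `KeyAt` with `h = √τ`, `w₀ = Zs τ x ϑ (u t)` (`per_Zs`, `one_mul`) gives `w, T, x', ϑ'`.
New piece `p s = Zs τ⁻¹ (-(√τ)⁻¹ • x) (-ϑ) (w (-(t/τ) + τ⁻¹ s))` on `[t, t + τ T (1 - τ₁)]`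
(`sol_rescale`, `√τ √(τ⁻¹) = 1`), `p t = u t` and `Zs τ x ϑ (p (t + τ s)) = w s` by `Zs_Zs`, `Zs_one`;
`u' = sol_glue`; `x₂ = x + √τ • x'`, `ϑ₂ = ϑ + ϑ'`; `T τ₁ ≤ 1/4`. -/
theorem st_step (hn : 1 ≤ n) (hτ₁ : 0 < τ₁) (hτ₁' : τ₁ ≤ 1 / 8) (hK : KeyAt n b q k τ₁ δ₀ C)
    {δ t τ ϑ : ℝ} {x : R12} {u : ℝ → R12 → ℂ} (hδ : δ ≤ δ₀) (hCδ : C * δ ≤ 1 / 2)
    (h : St n b q k δ t τ x ϑ u) :
    ∃ (T ϑ₂ : ℝ) (x₂ : R12) (u₂ : ℝ → R12 → ℂ),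
      St n b q k (δ / 2) (t + τ * (T * (1 - τ₁))) (τ * (T * τ₁)) x₂ ϑ₂ u₂ ∧
      (∀ s, s ≤ t → u₂ s = u s) ∧ ‖x₂ - x‖ ≤ Real.sqrt τ * (C * δ) ∧ |T - 1| ≤ C * δ ∧
      T * (1 - τ₁) < 1 - τ₁ / 2 ∧
      ∀ s ∈ Icc 0 (T * (1 - τ₁)), ∀ y,
        ‖Zs n b τ x ϑ (u₂ (t + τ * s)) y - UU n b q (Real.sqrt τ) s y‖ ≤ C * δ := by
  have hτ := h.τpos
  have hs : 0 < Real.sqrt τ := Real.sqrt_pos.2 hτ
  have htm : t ∈ Icc 0 t := ⟨h.tnn, le_rfl⟩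
  have hper := per_Zs n b hτ x ϑ (h.sol.per t htm)
  rw [one_mul] at hper
  obtain ⟨w, T, x', ϑ', hT, hx', hTlt, hw, hw0, hcl, hend⟩ := hK δ (Real.sqrt τ) hs h.τle hδ _
    (contDiff_Zs n b τ x ϑ (sol_smooth h.sol htm)) hper h.close
  have hT1 := abs_le.1 (hT.trans hCδ)
  have hT0 : 0 < T := by linarith [hT1.1]
  have hL : 0 ≤ T * (1 - τ₁) := mul_nonneg hT0.le (by linarith)
  have invA : ∀ f, Zs n b τ⁻¹ (-(Real.sqrt τ)⁻¹ • x) (-ϑ) (Zs n b τ x ϑ f) = f := fun f => by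
    rw [Zs_Zs (inv_pos.2 hτ) hτ, inv_mul_cancel₀ hτ.ne', smul_smul, mul_neg,
      mul_inv_cancel₀ hs.ne', neg_smul, one_smul, add_neg_cancel, neg_add_cancel, Zs_one]
  have invB : ∀ f, Zs n b τ x ϑ (Zs n b τ⁻¹ (-(Real.sqrt τ)⁻¹ • x) (-ϑ) f) = f := fun f => by
    rw [Zs_Zs hτ (inv_pos.2 hτ), mul_inv_cancel₀ hτ.ne', Real.sqrt_inv, neg_smul, neg_add_cancel,
      add_neg_cancel, Zs_one]
  have hlin : ∀ s : ℝ, -(t / τ) + τ⁻¹ * (t + τ * s) = s := fun s => by field_simp; ring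
  have hp := sol_rescale (b := b) hn hw (J' := Icc t (t + τ * (T * (1 - τ₁)))) (inv_pos.2 hτ)
    (-(t / τ)) (-(Real.sqrt τ)⁻¹ • x) (-ϑ) fun s hs' => by
      have e : -(t / τ) + τ⁻¹ * s = (s - t) / τ := by field_simp; ring
      rw [e]
      exact ⟨div_nonneg (by linarith [hs'.1]) hτ.le, by rw [div_le_iff₀ hτ]; linarith [hs'.2]⟩
  rw [Real.sqrt_inv, mul_inv_cancel₀ hs.ne'] at hp
  have hglue := sol_glue h.tnn (le_add_of_nonneg_right (mul_nonneg hτ.le hL)) h.sol hp (by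
    have := hlin 0
    rw [mul_zero, add_zero] at this
    beta_reduce
    rw [this, hw0, invA])
  set u₂ : ℝ → R12 → ℂ := fun s => if s ≤ t then u s else
    Zs n b τ⁻¹ (-(Real.sqrt τ)⁻¹ • x) (-ϑ) (w (-(t / τ) + τ⁻¹ * s)) with hu₂
  have key : ∀ s, 0 ≤ s → Zs n b τ x ϑ (u₂ (t + τ * s)) = w s := fun s hs0 => by
    rw [hu₂]
    beta_reduce
    split_ifs with h1
    · have : s = 0 := le_antisymm (by nlinarith) hs0
      rw [this, mul_zero, add_zero, hw0]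
    · rw [invB, hlin]
  have hTτ : 0 < T * τ₁ := mul_pos hT0 hτ₁
  have hsq : Real.sqrt (τ * (T * τ₁)) = Real.sqrt τ * Real.sqrt (T * τ₁) := Real.sqrt_mul hτ.le _
  refine ⟨T, ϑ' + ϑ, x + Real.sqrt τ • x', u₂, ⟨add_nonneg h.tnn (mul_nonneg hτ.le hL),
    mul_pos hτ hTτ, ?_, hglue, ?_⟩, fun s hs' => if_pos hs', ?_, hT, hTlt, fun s hs' y => ?_⟩
  · have h1 : Real.sqrt (T * τ₁) ≤ 1 / 2 := by
      rw [Real.sqrt_le_iff]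
      exact ⟨by norm_num, by nlinarith [hT1.2]⟩
    rw [hsq]
    nlinarith [h.τle, Real.sqrt_nonneg (T * τ₁)]
  · rw [hsq, mul_comm τ, ← Zs_Zs hTτ hτ, key _ hL]
    exact hend
  · rw [add_sub_cancel_left, norm_smul, Real.norm_of_nonneg hs.le]
    exact mul_le_mul_of_nonneg_left hx' hs.le
  · rw [key s hs'.1]
    exact hcl s hs' y

/-- Iterate `st_step` (recursion on `j` with states in a subtype, `δ_j = δ / 2^j`); `t` is monotone,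
`u_i = u_j` on `Iic (t j)` for `j ≤ i`; put `u s = u_{J s} s` with `J s = sInf {j | s ≤ t j}`; then
`u = u_j` on `Iic (t j)` and `sol_congr`. -/
theorem exists_chain (hn : 1 ≤ n) (hτ₁ : 0 < τ₁) (hτ₁' : τ₁ ≤ 1 / 8) (hC : 0 < C)
    (hK : KeyAt n b q k τ₁ δ₀ C) {δ τ₀ : ℝ} (hδ : δ ≤ δ₀) (hCδ : C * δ ≤ 1 / 2) {u₀ : R12 → ℂ}
    (h : St n b q k δ 0 τ₀ 0 0 (fun _ => u₀)) :
    ∃ (t τ T : ℕ → ℝ) (x : ℕ → R12) (ϑ : ℕ → ℝ) (u : ℝ → R12 → ℂ),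
      Chain n b q τ₁ C δ t τ T x ϑ u ∧ u 0 = u₀ := by
  have hδ0 : 0 < δ := lt_of_lt_of_le (Real.sqrt_pos.2 h.τpos) h.τle
  have hle : ∀ j : ℕ, δ / 2 ^ j ≤ δ := fun j => div_le_self hδ0.le (one_le_pow₀ (by norm_num))
  let S : ℕ → Type := fun j =>
    {p : ℝ × ℝ × R12 × ℝ × (ℝ → R12 → ℂ) // St n b q k (δ / 2 ^ j) p.1 p.2.1 p.2.2.1 p.2.2.2.1 p.2.2.2.2}
  have step : ∀ j (p : S j), ∃ (p' : S (j + 1)) (T : ℝ),
      p'.1.1 = p.1.1 + p.1.2.1 * (T * (1 - τ₁)) ∧ p'.1.2.1 = p.1.2.1 * (T * τ₁) ∧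
      (∀ s, s ≤ p.1.1 → p'.1.2.2.2.2 s = p.1.2.2.2.2 s) ∧
      ‖p'.1.2.2.1 - p.1.2.2.1‖ ≤ Real.sqrt p.1.2.1 * (C * (δ / 2 ^ j)) ∧
      |T - 1| ≤ C * (δ / 2 ^ j) ∧ T * (1 - τ₁) < 1 - τ₁ / 2 ∧
      ∀ s ∈ Icc 0 (T * (1 - τ₁)), ∀ y,
        ‖Zs n b p.1.2.1 p.1.2.2.1 p.1.2.2.2.1 (p'.1.2.2.2.2 (p.1.1 + p.1.2.1 * s)) y
          - UU n b q (Real.sqrt p.1.2.1) s y‖ ≤ C * (δ / 2 ^ j) := by
    intro j p
    obtain ⟨T, ϑ₂, x₂, u₂, h1, h2, h3, h4, h5, h6⟩ := st_step hn hτ₁ hτ₁' hK ((hle j).trans hδ)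
      ((mul_le_mul_of_nonneg_left (hle j) hC.le).trans hCδ) p.2
    exact ⟨⟨(_, _, x₂, ϑ₂, u₂), by rw [pow_succ, ← div_div]; exact h1⟩, T, rfl, rfl, h2, h3, h4,
      h5, h6⟩
  choose nx T hT using step
  let p0 : S 0 := ⟨(0, τ₀, 0, 0, fun _ => u₀), by simpa using h⟩
  let p : ∀ j, S j := fun j => Nat.rec p0 (fun j s => nx j s) j
  have hp : ∀ j, p (j + 1) = nx j (p j) := fun _ => rfl
  set t : ℕ → ℝ := fun j => (p j).1.1 with ht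
  set τ : ℕ → ℝ := fun j => (p j).1.2.1 with hτ
  set v : ℕ → ℝ → R12 → ℂ := fun j => (p j).1.2.2.2.2 with hv
  have hτpos : ∀ j, 0 < τ j := fun j => (p j).2.τpos
  have hTpos : ∀ j, 0 ≤ T j (p j) * (1 - τ₁) := fun j => by
    have h1 := (abs_le.1 (hT j (p j)).2.2.2.2.1).1
    have h2 := (mul_le_mul_of_nonneg_left (hle j) hC.le).trans hCδ
    exact mul_nonneg (by linarith) (by linarith)
  have hts : ∀ j, t (j + 1) = t j + τ j * (T j (p j) * (1 - τ₁)) := fun j => (hT j (p j)).1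
  have hmono : Monotone t := monotone_nat_of_le_succ fun j => by
    rw [hts]; exact le_add_of_nonneg_right (mul_nonneg (hτpos j).le (hTpos j))
  have hcoh : ∀ j i, j ≤ i → ∀ s, s ≤ t j → v i s = v j s := by
    intro j i hji s hs
    induction i, hji using Nat.le_induction with
    | base => rfl
    | succ i hji ih => rw [← ih]; exact (hT i (p i)).2.2.1 s (hs.trans (hmono hji))
  have hu : ∀ j s, s ≤ t j → v (sInf {i | s ≤ t i}) s = v j s := fun j s hs =>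
    (hcoh _ j (Nat.sInf_le hs) s (Nat.sInf_mem (s := {i | s ≤ t i}) ⟨j, hs⟩)).symm
  refine ⟨t, τ, fun j => T j (p j), fun j => (p j).1.2.2.1, fun j => (p j).1.2.2.2.1,
    fun s => v (sInf {i | s ≤ t i}) s,
    ⟨hτ₁, hτ₁', hC, hδ0, hCδ, rfl, hτpos, hts, fun j => (hT j (p j)).2.1,
      fun j => (hT j (p j)).2.2.2.1, fun j => (hT j (p j)).2.2.2.2.1,
      fun j => (hT j (p j)).2.2.2.2.2.1, fun j => ?_, fun j s hs y => ?_⟩, hu 0 0 le_rfl⟩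
  · exact sol_congr (p j).2.sol fun s hs => hu j s hs.2
  · have h1 : t j + τ j * s ≤ t (j + 1) := by
      rw [hts]; exact add_le_add_right (mul_le_mul_of_nonneg_left hs.2 (hτpos j).le) _
    simp only [hu (j + 1) _ h1]
    exact (hT j (p j)).2.2.2.2.2.2 s hs y

end

end Crest.Agent.R086.K
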