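import Crest.Agent.R086.K.Zs

open MeasureTheory Set Filter Topology
open scoped ContDiff ComplexConjugate ENNReal
open Crest.AnalysisR.PDE.NLS

namespace Crest.Agent.R086.K

open Crest.Agent.R086.E

noncomputable section

/-! # Blow-up time, point and rate -/

variable {n : ℕ} {b : ℝ} {q : ℝ → ℂ} {τ₁ C δ : ℝ} {t τ T : ℕ → ℝ} {x : ℕ → R12} {ϑ : ℕ → ℝ}
  {u : ℝ → R12 → ℂ}

theorem helper53_geo {E : Type*} [MetricSpace E] [CompleteSpace E] (f : ℕ → E) (d : ℕ → ℝ)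
    (h1 : ∀ j, dist (f j) (f (j + 1)) ≤ d j) (h2 : ∀ j, d (j + 1) ≤ d j / 2) :
    ∃ a, Tendsto f atTop (𝓝 a) ∧ ∀ j, dist (f j) a ≤ 2 * d j := by
  have h3 : ∀ j m, d (j + m) ≤ 2 * d j / 2 / 2 ^ m := fun j m => by
    induction m with
    | zero => simp
    | succ m ih =>
      have := h2 (j + m)
      rw [pow_succ, ← div_div, ← add_assoc]
      linarith
  obtain ⟨a, ha⟩ := cauchySeq_tendsto_of_complete
    (cauchySeq_of_le_geometric_two (f := f) (C := 2 * d 0) fun m =>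
      (h1 m).trans (by simpa only [zero_add] using h3 0 m))
  refine ⟨a, ha, fun j => ?_⟩
  exact dist_le_of_le_geometric_two_of_tendsto₀ (f := fun m => f (j + m)) (C := 2 * d j)
    (fun m => (h1 (j + m)).trans (h3 j m))
    (ha.comp (tendsto_atTop_mono (fun m => Nat.le_add_left m j) tendsto_id))

theorem Chain.helper53_T (h : Chain n b q τ₁ C δ t τ T x ϑ u) (j : ℕ) :
    1 / 2 ≤ T j ∧ T j ≤ 3 / 2 ∧ τ (j + 1) ≤ τ j / 4 := by
  have a1 := abs_le.1 (h.T_near j)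
  have a2 : C * (δ / 2 ^ j) ≤ C * δ := mul_le_mul_of_nonneg_left
    (div_le_self h.δpos.le (one_le_pow₀ one_le_two)) h.Cpos.le
  have a3 := h.small
  have a4 : T j ≤ 3 / 2 := by linarith
  refine ⟨by linarith, a4, ?_⟩
  have a5 : T j * τ₁ ≤ 3 / 2 * (1 / 8) := mul_le_mul a4 h.τ₁le h.τ₁pos.le (by norm_num)
  have a6 := mul_le_mul_of_nonneg_left a5 (h.τpos j).le
  have a7 := h.τpos j
  rw [h.τ_succ]
  linarith

theorem Chain.helper53_e (h : Chain n b q τ₁ C δ t τ T x ϑ u) (j : ℕ) :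
    0 ≤ C * (δ / 2 ^ (j + 1)) ∧ C * (δ / 2 ^ (j + 1)) ≤ C * (δ / 2 ^ j) := by
  have := h.Cpos
  have := h.δpos
  refine ⟨by positivity, mul_le_mul_of_nonneg_left (div_le_div_of_nonneg_left h.δpos.le
    (by positivity) (pow_le_pow_right₀ one_le_two (Nat.le_succ j))) h.Cpos.le⟩

/-- `1/2 ≤ T j ≤ 3/2`, `τ (j+1) ≤ τ j / 4`, `0 < t (j+1) - t j ≤ τ j`; so `t` increases to `Ti` with
`0 < Ti - t j ≤ 2 τ j`.  With `σ j = (Ti - t j) / τ j`: `σ j - 1 = (T j - 1) + T j τ₁ (σ (j+1) - 1)`; by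
induction on `m`, `|σ j - 1| ≤ 2 C δ / 2^j + (1/4)^m` for all `j`. -/
theorem Chain.time (h : Chain n b q τ₁ C δ t τ T x ϑ u) :
    ∃ Ti : ℝ, StrictMono t ∧ (∀ j, t j < Ti) ∧ Tendsto t atTop (𝓝 Ti) ∧
      ∀ j, |(Ti - t j) / τ j - 1| ≤ 2 * (C * (δ / 2 ^ j)) := by
  obtain ⟨Ti, h1, h2⟩ := helper53_geo (fun j => t j + τ j) (fun j => τ j * (C * (δ / 2 ^ j)))
    (fun j => by
      have e : t (j + 1) + τ (j + 1) - (t j + τ j) = τ j * (T j - 1) := by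
        rw [h.t_succ, h.τ_succ]; ring
      rw [dist_comm, Real.dist_eq, e, abs_mul, abs_of_pos (h.τpos j)]
      exact mul_le_mul_of_nonneg_left (h.T_near j) (h.τpos j).le)
    (fun j => by
      have a1 := (h.helper53_T j).2.2
      have a2 := h.τpos j
      have := mul_le_mul (a1.trans (by linarith : τ j / 4 ≤ τ j / 2)) (h.helper53_e j).2
        (h.helper53_e j).1 (by positivity)
      linarith)
  have hm : StrictMono t := strictMono_nat_of_lt_succ fun j => by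
    have a1 := (h.helper53_T j).1
    have a2 := h.τ₁le
    rw [h.t_succ]
    exact lt_add_of_pos_right _ (mul_pos (h.τpos j) (mul_pos (by linarith) (by linarith)))
  have h0 : Tendsto τ atTop (𝓝 0) := by
    have a1 : ∀ j, τ j ≤ τ 0 * (1 / 4) ^ j := fun j => by
      induction j with
      | zero => simp
      | succ j ih =>
        have := (h.helper53_T j).2.2
        rw [pow_succ]
        linarith
    refine squeeze_zero (fun j => (h.τpos j).le) a1 ?_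
    simpa only [mul_zero] using (tendsto_pow_atTop_nhds_zero_of_lt_one (r := (1 / 4 : ℝ))
      (by norm_num) (by norm_num)).const_mul (τ 0)
  have ht : Tendsto t atTop (𝓝 Ti) := by
    simpa only [add_sub_cancel_right, sub_zero] using h1.sub h0
  refine ⟨Ti, hm, fun j => (hm (Nat.lt_succ_self j)).trans_le (hm.monotone.ge_of_tendsto ht _), ht,
    fun j => ?_⟩
  have a1 := h2 j
  have a2 := h.τpos j
  have e : (Ti - t j) / τ j - 1 = (Ti - (t j + τ j)) / τ j := by field_simp; ring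
  rw [dist_comm, Real.dist_eq] at a1
  rw [e, abs_div, abs_of_pos a2, div_le_iff₀ a2]
  linarith

/-- `√(τ (j+1)) ≤ √(τ j) / 2`; geometric series (`cauchySeq_of_le_geometric_two` or
`dist_le_tsum_of_dist_le_of_tendsto`) -/
theorem Chain.point (h : Chain n b q τ₁ C δ t τ T x ϑ u) :
    ∃ xs : R12, ∀ j, ‖xs - x j‖ ≤ Real.sqrt (τ j) * (2 * (C * (δ / 2 ^ j))) := by
  obtain ⟨xs, -, h2⟩ := helper53_geo x (fun j => Real.sqrt (τ j) * (C * (δ / 2 ^ j)))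
    (fun j => by rw [dist_comm, dist_eq_norm]; exact h.x_succ j)
    (fun j => by
      have a1 : Real.sqrt (τ (j + 1)) ≤ Real.sqrt (τ j) / 2 := by
        refine Real.sqrt_le_iff.2 ⟨by positivity, ?_⟩
        rw [div_pow, Real.sq_sqrt (h.τpos j).le]
        have := (h.helper53_T j).2.2
        linarith
      have := mul_le_mul a1 (h.helper53_e j).2 (h.helper53_e j).1 (by positivity)
      linarith)
  refine ⟨xs, fun j => ?_⟩
  have := h2 j
  rw [dist_comm, dist_eq_norm] at this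
  linarith

theorem helper83_rate (h : Chain n b q τ₁ C δ t τ T x ϑ u) {Ti : ℝ} {xs : R12} {j : ℕ} {ε r : ℝ}
    (hε : ε = C * (δ / 2 ^ j)) (h4 : |(Ti - t j) / τ j - 1| ≤ 2 * ε)
    (h5 : ‖xs - x j‖ ≤ Real.sqrt (τ j) * (2 * ε)) (hr : t j ≤ r) (hr' : r ≤ t (j + 1))
    (hT : r < Ti) : ∃ A E ρ : ℝ, (Ti - r) ^ aa n * ‖u r xs‖ = A ^ aa n * (E + ‖q ρ‖) ∧
      |A - 1| ≤ 4 / τ₁ * ε ∧ |E| ≤ ε ∧ |ρ| ≤ 4 / τ₁ * ε := by
  have hτ := h.τpos j
  have hτ₁ := h.τ₁pos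
  have hsq := Real.sqrt_pos.2 hτ
  have hε0 : 0 < ε := by rw [hε]; have := h.Cpos; have := h.δpos; positivity
  have hε1 : ε ≤ 1 / 2 := by
    rw [hε]
    exact (mul_le_mul_of_nonneg_left (div_le_self h.δpos.le (one_le_pow₀ one_le_two))
      h.Cpos.le).trans h.small
  have ha : 0 ≤ aa n := by unfold aa; positivity
  obtain ⟨s, rfl⟩ : ∃ s, r = t j + τ j * s := ⟨(r - t j) / τ j, by field_simp; ring⟩
  obtain ⟨y, rfl⟩ : ∃ y, xs = x j + Real.sqrt (τ j) • y :=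
    ⟨(Real.sqrt (τ j))⁻¹ • (xs - x j), by rw [smul_inv_smul₀ hsq.ne', add_sub_cancel]⟩
  rw [h.t_succ] at hr'
  have hs0 : 0 ≤ s := nonneg_of_mul_nonneg_right (by linarith) hτ
  have hs1 : s ≤ T j * (1 - τ₁) := le_of_mul_le_mul_left (by linarith) hτ
  have hs2 : τ₁ / 2 < 1 - s := by linarith [h.T_lt j]
  have hs3 : 0 < 1 - s := by linarith
  have hc := (abs_norm_sub_norm_le _ _).trans ((h.close j s ⟨hs0, hs1⟩ y).trans_eq hε.symm)
  rw [norm_Zs hτ, norm_UU _ (by linarith)] at hc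
  rw [add_sub_cancel_left, norm_smul, Real.norm_of_nonneg hsq.le] at h5
  have hy : ‖y‖ ≤ 2 * ε := le_of_mul_le_mul_left h5 hsq
  have hp := Real.rpow_pos_of_pos hs3 (aa n)
  refine ⟨(Ti - (t j + τ j * s)) / (τ j * (1 - s)),
    (1 - s) ^ aa n * (τ j ^ aa n * ‖u (t j + τ j * s) (x j + Real.sqrt (τ j) • y)‖) -
      ‖q (PP (Real.sqrt (τ j)) y / (4 * (1 - s)))‖,
    PP (Real.sqrt (τ j)) y / (4 * (1 - s)), ?_, ?_, ?_, ?_⟩
  · rw [sub_add_cancel, Real.div_rpow (by linarith) (by positivity), Real.mul_rpow hτ.le hs3.le]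
    have := Real.rpow_pos_of_pos hτ (aa n)
    field_simp
  · have h6 : (Ti - (t j + τ j * s)) / (τ j * (1 - s)) - 1 =
        ((Ti - t j) / τ j - 1) / (1 - s) := by
      field_simp
      ring
    rw [h6, abs_div, abs_of_pos hs3, div_le_iff₀ hs3]
    refine h4.trans ?_
    calc 2 * ε = 4 / τ₁ * ε * (τ₁ / 2) := by field_simp; ring
      _ ≤ _ := by gcongr
  · rw [Real.rpow_neg hs3.le] at hc
    have h6 := mul_le_mul (Real.rpow_le_one hs3.le (by linarith) ha) hc (abs_nonneg _) zero_le_one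
    rwa [one_mul, ← abs_of_pos hp, ← abs_mul, abs_of_pos hp, mul_sub, mul_inv_cancel_left₀ hp.ne'] at h6
  · have h6 := PP_nonneg (Real.sqrt (τ j)) y
    have h7 := PP_le_sq (Real.sqrt (τ j)) y
    rw [abs_of_nonneg (by positivity), div_le_iff₀ (by positivity)]
    calc _ ≤ 4 / τ₁ * ε * (4 * (τ₁ / 2)) := by
          field_simp
          nlinarith [norm_nonneg y]
      _ ≤ _ := by gcongr

/-- For `r ∈ [t j, t (j+1)]` put `s = (r - t j) / τ j`, `y = (√(τ j))⁻¹ • (xs - x j)`,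
`σ = (Ti - t j) / τ j`.  Then `(Ti - r)^a ‖u r xs‖ = ((σ - s) / (1 - s))^a · (1 - s)^a ‖W‖` with
`W = Zs … y` (`norm_Zs`), `1 - s ≥ τ₁ / 2`, `|(σ - s) / (1 - s) - 1| ≤ 4 C δ_j / τ₁`,
`|(1 - s)^a ‖W‖ - ‖q ρ‖| ≤ C δ_j` (`norm_UU`), `0 ≤ ρ ≤ ‖y‖² / (2 τ₁)` (`PP_le_sq`).  All this tends to
`‖q 0‖` as `j → ∞`, and `j → ∞` as `r ↑ Ti`. -/
theorem Chain.rate (hq : Prof n b q) (h : Chain n b q τ₁ C δ t τ T x ϑ u) {Ti : ℝ} {xs : R12}
    (h1 : StrictMono t) (h2 : ∀ j, t j < Ti) (h3 : Tendsto t atTop (𝓝 Ti))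
    (h4 : ∀ j, |(Ti - t j) / τ j - 1| ≤ 2 * (C * (δ / 2 ^ j)))
    (h5 : ∀ j, ‖xs - x j‖ ≤ Real.sqrt (τ j) * (2 * (C * (δ / 2 ^ j)))) :
    Tendsto (fun r : ℝ => (Ti - r) ^ aa n * ‖u r xs‖) (𝓝[<] Ti) (𝓝 ‖q 0‖) := by
  have key : ∀ r, ∃ (j : ℕ) (A E ρ : ℝ), t 0 ≤ r → r < Ti → r < t (j + 1) ∧
      (Ti - r) ^ aa n * ‖u r xs‖ = A ^ aa n * (E + ‖q ρ‖) ∧
      |A - 1| ≤ 4 / τ₁ * (C * (δ / 2 ^ j)) ∧ |E| ≤ C * (δ / 2 ^ j) ∧
      |ρ| ≤ 4 / τ₁ * (C * (δ / 2 ^ j)) := fun r => by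
    by_cases hr : t 0 ≤ r ∧ r < Ti
    · classical
      have hex : ∃ j, r < t (j + 1) :=
        ((h3.comp (tendsto_add_atTop_nat 1)).eventually (lt_mem_nhds hr.2)).exists
      have hj : t (Nat.find hex) ≤ r := by
        rcases h0 : Nat.find hex with _ | j
        · exact hr.1
        · exact not_lt.1 (Nat.find_min hex (by omega))
      obtain ⟨A, E, ρ, hh⟩ :=
        helper83_rate h rfl (h4 _) (h5 _) hj (Nat.find_spec hex).le hr.2
      exact ⟨_, A, E, ρ, fun _ _ => ⟨Nat.find_spec hex, hh⟩⟩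
    · exact ⟨0, 0, 0, 0, fun h h' => absurd ⟨h, h'⟩ hr⟩
  choose J A E ρ hk using key
  have hev : ∀ j, ∀ᶠ r in 𝓝[<] Ti, t j ≤ r := fun j =>
    mem_nhdsWithin_of_mem_nhds (le_mem_nhds (h2 j))
  replace hk := ((hev 0).and self_mem_nhdsWithin).mono fun r hr => hk r hr.1 hr.2
  have hJ : Tendsto J (𝓝[<] Ti) atTop := tendsto_atTop.2 fun N => by
    filter_upwards [hk, hev N] with r hr hr'
    exact Nat.lt_succ_iff.1 (h1.lt_iff_lt.1 (hr'.trans_lt hr.1))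
  have hε : Tendsto (fun r => C * (δ / 2 ^ J r)) (𝓝[<] Ti) (𝓝 0) := by
    simpa [Function.comp_def] using ((tendsto_const_nhds.div_atTop (tendsto_pow_atTop_atTop_of_one_lt
      (one_lt_two (α := ℝ)))).const_mul C).comp hJ
  have hε' : Tendsto (fun r => 4 / τ₁ * (C * (δ / 2 ^ J r))) (𝓝[<] Ti) (𝓝 0) := by
    simpa using hε.const_mul (4 / τ₁)
  have hA : Tendsto A (𝓝[<] Ti) (𝓝 1) :=
    tendsto_sub_nhds_zero_iff.1 (squeeze_zero_norm' (hk.mono fun r hr => hr.2.2.1) hε')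
  have hE : Tendsto E (𝓝[<] Ti) (𝓝 0) := squeeze_zero_norm' (hk.mono fun r hr => hr.2.2.2.1) hε
  have hρ : Tendsto ρ (𝓝[<] Ti) (𝓝 0) := squeeze_zero_norm' (hk.mono fun r hr => hr.2.2.2.2) hε'
  have hl := (hA.rpow_const (p := aa n) (Or.inl one_ne_zero)).mul
    (hE.add ((hq.smooth.continuous.tendsto 0).comp hρ).norm)
  rw [Real.one_rpow, one_mul, zero_add] at hl
  exact hl.congr' (hk.mono fun r hr => hr.2.1.symm)

end

end Crest.Agent.R086.K
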