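import Crest.Agent.R086.K.Sol

open MeasureTheory Set Filter Topology
open scoped ContDiff ComplexConjugate ENNReal
open Crest.AnalysisR.PDE.NLS

namespace Crest.Agent.R086.K

open Crest.Agent.R086.E

noncomputable section

/-! # From `Sol` to classical solutions -/

/-- joint `C¹` regularity from continuous partial derivatives (`hasStrictFDerivAt_uncurry_coprod`,
`contDiffOn_succ_iff_fderiv_of_isOpen` or `contDiffAt_one_iff`; `ck_lap`, `ck_NL`,
`ck_continuousOn`) -/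
theorem sol_contDiffOn {n : ℕ} {h T : ℝ} {u : ℝ → R12 → ℂ} (hu : Sol n h (Icc 0 T) u) :
    ContDiffOn ℝ 1 (fun p : ℝ × R12 => u p.1 p.2) (Ioo 0 T ×ˢ univ) := by
  have hO : IsOpen (Ioo 0 T ×ˢ (univ : Set R12)) := isOpen_Ioo.prod isOpen_univ
  have hs : Ioo 0 T ×ˢ (univ : Set R12) ⊆ Icc 0 T ×ˢ univ := prod_mono Ioo_subset_Icc_self Subset.rfl
  have c1 : ContinuousOn (fun p : ℝ × R12 => ContinuousLinearMap.toSpanSingleton ℝ
      (Complex.I * (lap (u p.1) p.2 - NL n (u p.1 p.2)))) (Ioo 0 T ×ˢ univ) :=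
    (ContinuousLinearMap.toSpanSingletonLIE ℝ ℂ).continuous.comp_continuousOn
      ((ck_continuousOn (ck_const_mul Complex.I
        (ck_sub (ck_lap (hu.reg 2)) (ck_NL n (hu.reg 0))))).mono hs)
  have c2 : ContinuousOn (fun p : ℝ × R12 => fderiv ℝ (u p.1) p.2) (Ioo 0 T ×ˢ univ) :=
    ((continuousMultilinearCurryFin0 ℝ R12 (R12 →L[ℝ] ℂ)).continuous.comp_continuousOn
      ((CkA_fderiv (CkA_iff.1 (hu.reg 1))).2 0 le_rfl)).mono hs
  refine (contDiffOn_succ_iff_hasFDerivWithinAt_of_uniqueDiffOn (n := 0) hO.uniqueDiffOn).2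
    ⟨by simp, _, contDiffOn_zero.2
      ((ContinuousLinearMap.coprodEquivL ℝ).continuous.comp_continuousOn (c1.prodMk c2)),
      fun p hp => ?_⟩
  refine (hasStrictFDerivAt_uncurry_coprod (f := u)
    (f₁ := fun t y => ContinuousLinearMap.toSpanSingleton ℝ
      (Complex.I * (lap (u t) y - NL n (u t y)))) (f₂ := fun t y => fderiv ℝ (u t) y) ?_ ?_
    (c1.continuousAt (hO.mem_nhds hp))
    (c2.continuousAt (hO.mem_nhds hp))).hasFDerivAt.hasFDerivWithinAt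
  · filter_upwards [hO.mem_nhds hp] with v hv
    exact ((hu.eqn v.1 (hs hv).1 v.2).hasDerivAt (Icc_mem_nhds hv.1.1 hv.1.2)).hasFDerivAt
  · filter_upwards [hO.mem_nhds hp] with v hv
    exact ((sol_smooth hu (hs hv).1).differentiable (by simp) _).hasFDerivAt

/-- every `r < Ti` is below some `t j`; `NL_eq`, `per_one_iff` -/
theorem classical {n : ℕ} {t : ℕ → ℝ} {Ti : ℝ} {u : ℝ → R12 → ℂ} (ht : Tendsto t atTop (𝓝 Ti))
    (hu : ∀ j, Sol n 1 (Icc 0 (t j)) u) : IsClassicalSolution (2 * n + 1) Ti u := by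
  have h : ∀ r < Ti, ∃ j, r < t j := fun r hr => (ht.eventually (lt_mem_nhds hr)).exists
  refine ⟨fun p hp => ?_, fun p hp => ?_, fun r hr => ?_, fun r hr => ?_, fun r hr x => ?_⟩
  · obtain ⟨j, hj⟩ := h _ hp.1.2
    refine (ck_continuousOn ((hu j).reg 0) p ⟨⟨hp.1.1, hj.le⟩, trivial⟩).mono_of_mem_nhdsWithin ?_
    filter_upwards [self_mem_nhdsWithin, mem_nhdsWithin_of_mem_nhds
      (continuous_fst.continuousAt.eventually (gt_mem_nhds hj))] with v hv hv'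
    exact ⟨⟨hv.1.1, hv'.le⟩, trivial⟩
  · obtain ⟨j, hj⟩ := h _ hp.1.2
    exact ((sol_contDiffOn (hu j)).contDiffAt
      ((isOpen_Ioo.prod isOpen_univ).mem_nhds ⟨⟨hp.1.1, hj⟩, trivial⟩)).contDiffWithinAt
  · obtain ⟨j, hj⟩ := h _ hr.2
    exact ((hu j).reg 2).diff r ⟨hr.1.le, hj.le⟩
  · obtain ⟨j, hj⟩ := h _ hr.2
    exact per_one_iff.1 ((hu j).per r ⟨hr.1, hj.le⟩)
  · obtain ⟨j, hj⟩ := h _ hr.2
    rw [(((hu j).eqn r ⟨hr.1.le, hj.le⟩ x).hasDerivAt (Icc_mem_nhds hr.1 hj)).deriv,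
      Nat.add_sub_cancel, ← NL_eq]
    change _ + lap (u r) x = _
    linear_combination (lap (u r) x - NL n (u r x)) * Complex.I_mul_I

end

end Crest.Agent.R086.K
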