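import Crest.Agent.R086.E.Nrm
import Crest.Agent.R086.E.CkA

open MeasureTheory Set Filter Topology
open scoped ContDiff ComplexConjugate ENNReal
open Crest.AnalysisR.PDE.NLS

namespace Crest.Agent.R086.K

open Crest.Agent.R086.E

noncomputable section

/-! # Part K: definitions -/

/-- error of `U_h` at time `t` (see `UUStmt`) -/
def ErrT (n : ℕ) (b : ℝ) (q : ℝ → ℂ) (h t : ℝ) (y : R12) : ℂ :=
  cp (1 - t) (-(aa n : ℂ) + Complex.I * b - 1)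
    * Err q (h * Real.sqrt (1 - t)) ((Real.sqrt (1 - t))⁻¹ • y)

/-- the perturbation `c (w - U_h)` -/
def Pert (n : ℕ) (b : ℝ) (q : ℝ → ℂ) (h c : ℝ) (w : ℝ → R12 → ℂ) (t : ℝ) (y : R12) : ℂ :=
  (c : ℂ) * (w t y - UU n b q h t y)

/-- the source of the linearised equation for `Pert` -/
def Src (n : ℕ) (b : ℝ) (q : ℝ → ℂ) (h c : ℝ) (w : ℝ → R12 → ℂ) (t : ℝ) (y : R12) : ℂ :=
  (c : ℂ) * (Quad n (UU n b q h t y) (w t y - UU n b q h t y) - ErrT n b q h t y)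

/-- the body of `EnergyStmt` at level `k` with constants `μ, C` -/
def EnAt (n : ℕ) (b : ℝ) (q : ℝ → ℂ) (k : ℕ) (μ C : ℝ) : Prop :=
  ∀ h ∈ Icc (0 : ℝ) 1, ∀ t₁ t₂ : ℝ, 0 ≤ t₁ → t₁ ≤ t₂ → t₂ < 1 →
    ∀ z S : ℝ → R12 → ℂ, Lin n b q k h (Icc t₁ t₂) z S → ∀ A B : ℝ, 0 ≤ A → 0 ≤ B →
      nrmT n b k h t₁ (z t₁) ≤ ENNReal.ofReal A →
      (∀ s ∈ Icc t₁ t₂, nrmT n b k h s (fun y => ((1 - s : ℝ) : ℂ) * S s y) ≤ ENNReal.ofReal B) →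
      nrmT n b k h t₂ (z t₂) ≤ ENNReal.ofReal (C * ((1 - t₁) / (1 - t₂)) ^ C * (A + B)) ∧
      ∀ D : ℝ, 0 ≤ D → (∀ s ∈ Icc t₁ t₂, lowT n b h s (z s) ≤ ENNReal.ofReal D) →
        nrmT n b k h t₂ (z t₂) ≤ ENNReal.ofReal (C * (((1 - t₂) / (1 - t₁)) ^ μ * A + B + D))

/-- a priori bounds up to time `T` -/
structure APB (n : ℕ) (b : ℝ) (q : ℝ → ℂ) (k : ℕ) (T δT CT : ℝ) : Prop where
  pos : 0 < δT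
  le_one : δT ≤ 1
  one_le : 1 ≤ CT
  bound : ∀ δ h : ℝ, 0 < h → h ≤ δ → δ ≤ δT → ∀ (T' : ℝ) (w : ℝ → R12 → ℂ), T' ≤ T →
    Sol n h (Icc 0 T') w → nrm k h (fun y => w 0 y - UU n b q h 0 y) ≤ ENNReal.ofReal δ →
    ∀ t ∈ Icc 0 T', nrmT n b k h t (Pert n b q h 1 w t) ≤ ENNReal.ofReal (CT * δ) ∧
      nrmT n b k h t (fun y => ((1 - t : ℝ) : ℂ) * Src n b q h 1 w t y)
        ≤ ENNReal.ofReal (CT * δ ^ 2) ∧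
      ∀ y, ‖w t y - UU n b q h t y‖ ≤ CT * δ

/-- a priori bounds and existence up to time `T` -/
structure AP (n : ℕ) (b : ℝ) (q : ℝ → ℂ) (k : ℕ) (T δT CT : ℝ) : Prop
    extends APB n b q k T δT CT where
  exist : ∀ δ h : ℝ, 0 < h → h ≤ δ → δ ≤ δT → ∀ w₀ : R12 → ℂ, ContDiff ℝ ∞ w₀ → Per h w₀ →
    nrm k h (fun y => w₀ y - UU n b q h 0 y) ≤ ENNReal.ofReal δ →
    ∃ w : ℝ → R12 → ℂ, Sol n h (Icc 0 T) w ∧ w 0 = w₀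

/-- the body of `KeyStmt` -/
def KeyAt (n : ℕ) (b : ℝ) (q : ℝ → ℂ) (k : ℕ) (τ₁ δ₀ C : ℝ) : Prop :=
  ∀ δ h : ℝ, 0 < h → h ≤ δ → δ ≤ δ₀ →
    ∀ w₀ : R12 → ℂ, ContDiff ℝ ∞ w₀ → Per h w₀ →
      nrm k h (fun y => w₀ y - UU n b q h 0 y) ≤ ENNReal.ofReal δ →
      ∃ (w : ℝ → R12 → ℂ) (T : ℝ) (x : R12) (ϑ : ℝ), |T - 1| ≤ C * δ ∧ ‖x‖ ≤ C * δ ∧
        T * (1 - τ₁) < 1 - τ₁ / 2 ∧ Sol n h (Icc 0 (T * (1 - τ₁))) w ∧ w 0 = w₀ ∧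
        (∀ t ∈ Icc 0 (T * (1 - τ₁)), ∀ y, ‖w t y - UU n b q h t y‖ ≤ C * δ) ∧
        nrm k (h * Real.sqrt (T * τ₁))
          (fun y => Zs n b (T * τ₁) x ϑ (w (T * (1 - τ₁))) y - UU n b q (h * Real.sqrt (T * τ₁)) 0 y)
          ≤ ENNReal.ofReal (δ / 2)

/-- state of the iteration: a solution on `[0, t]` of period `2π`, close to the profile at scale `τ` -/
structure St (n : ℕ) (b : ℝ) (q : ℝ → ℂ) (k : ℕ) (δ t τ : ℝ) (x : R12) (ϑ : ℝ)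
    (u : ℝ → R12 → ℂ) : Prop where
  tnn : 0 ≤ t
  τpos : 0 < τ
  τle : Real.sqrt τ ≤ δ
  sol : Sol n 1 (Icc 0 t) u
  close : nrm k (Real.sqrt τ) (fun y => Zs n b τ x ϑ (u t) y - UU n b q (Real.sqrt τ) 0 y)
    ≤ ENNReal.ofReal δ

/-- the infinite chain of renormalisation steps -/
structure Chain (n : ℕ) (b : ℝ) (q : ℝ → ℂ) (τ₁ C δ : ℝ) (t τ T : ℕ → ℝ) (x : ℕ → R12) (ϑ : ℕ → ℝ)
    (u : ℝ → R12 → ℂ) : Prop where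
  τ₁pos : 0 < τ₁
  τ₁le : τ₁ ≤ 1 / 8
  Cpos : 0 < C
  δpos : 0 < δ
  small : C * δ ≤ 1 / 2
  t0 : t 0 = 0
  τpos : ∀ j, 0 < τ j
  t_succ : ∀ j, t (j + 1) = t j + τ j * (T j * (1 - τ₁))
  τ_succ : ∀ j, τ (j + 1) = τ j * (T j * τ₁)
  x_succ : ∀ j, ‖x (j + 1) - x j‖ ≤ Real.sqrt (τ j) * (C * (δ / 2 ^ j))
  T_near : ∀ j, |T j - 1| ≤ C * (δ / 2 ^ j)
  T_lt : ∀ j, T j * (1 - τ₁) < 1 - τ₁ / 2
  sol : ∀ j, Sol n 1 (Icc 0 (t j)) u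
  close : ∀ j, ∀ s ∈ Icc 0 (T j * (1 - τ₁)), ∀ y,
    ‖Zs n b (τ j) (x j) (ϑ j) (u (t j + τ j * s)) y - UU n b q (Real.sqrt (τ j)) s y‖
      ≤ C * (δ / 2 ^ j)

end

end Crest.Agent.R086.K
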