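import Crest.Agent.R086.K.Lin
import Crest.Agent.R086.L.Main

open MeasureTheory Set Filter Topology
open scoped ContDiff ComplexConjugate ENNReal
open Crest.AnalysisR.PDE.NLS

namespace Crest.Agent.R086.K

open Crest.Agent.R086.E

noncomputable section

/-! # Existence up to time `T` -/

variable {n : ℕ} {b : ℝ} {q : ℝ → ℂ}

/-- `Zs (1-t) 0 0 (w t) = U_{h'} 0 + Zs (1-t) 0 0 (Pert 1 w t)` (`Zs_UU`); `UUStmt` part 3, `SobStmt`,
`norm_iteratedFDeriv_Zs` at the point `(√(1-t))⁻¹ • y`, `1 - t ≥ 1 - T` -/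
theorem deriv_bound (hS : SobStmt) (hU : UUStmt) (hq : Prof n b q) {k : ℕ} (hk : 80 ≤ k) {T : ℝ}
    (hT : T < 1) (A : ℝ) : ∃ B : ℝ, ∀ h ∈ Icc (0 : ℝ) 1, ∀ t ∈ Icc (0 : ℝ) T,
      ∀ w : ℝ → R12 → ℂ, ContDiff ℝ ∞ (w t) → Per h (w t) →
      nrmT n b k h t (Pert n b q h 1 w t) ≤ ENNReal.ofReal A →
      ∀ j : ℕ, j ≤ 24 → ∀ y, ‖iteratedFDeriv ℝ j (w t) y‖ ≤ B := by
  obtain ⟨C, hC, hSob⟩ := hS k hk
  obtain ⟨-, hUper, hUb, -, -⟩ := hU n b q hq
  choose Cf hCf using hUb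
  have ha : 0 ≤ aa n := by unfold aa; positivity
  set M : ℝ := ∑ j ∈ Finset.range 25, |Cf j| with hM
  have hT' : 0 < 1 - T := by linarith
  refine ⟨(M + C * max A 0) / ((1 - T) ^ aa n * Real.sqrt (1 - T) ^ 24), ?_⟩
  intro h hh t ht w hw hp hN j hj y
  have ht1 : t < 1 := lt_of_le_of_lt ht.2 hT
  have hτ : 0 < 1 - t := by linarith
  have hτ1 : 1 - t ≤ 1 := by linarith [ht.1]
  have hsτ : 0 < Real.sqrt (1 - t) := Real.sqrt_pos.2 hτ
  have hs1 : Real.sqrt (1 - t) ≤ 1 := Real.sqrt_le_one.2 hτ1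
  have hh' : h * Real.sqrt (1 - t) ∈ Icc (0 : ℝ) 1 :=
    ⟨mul_nonneg hh.1 hsτ.le, mul_le_one₀ hh.2 hsτ.le hs1⟩
  have hUs : ContDiff ℝ ∞ (UU n b q h t) := contDiff_UU hU hq h ht1
  have hU0 : ContDiff ℝ ∞ (UU n b q (h * Real.sqrt (1 - t)) 0) := contDiff_UU hU hq _ one_pos
  have hPs : ContDiff ℝ ∞ (Pert n b q h 1 w t) := by
    rw [Pert_one]; exact hw.sub hUs
  have hPp : Per h (Pert n b q h 1 w t) := by
    rw [Pert_one]
    intro h0 y i
    simp only [hp h0 y i, hUper h t h0 y i]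
  have hZs : ContDiff ℝ ∞ (Zs n b (1 - t) 0 0 (Pert n b q h 1 w t)) := contDiff_Zs _ _ _ _ _ hPs
  set y' : R12 := (Real.sqrt (1 - t))⁻¹ • y with hy'
  have h1 := (hSob _ hh' (Zs n b (1 - t) 0 0 (Pert n b q h 1 w t)) (max A 0) (le_max_right _ _)
    (hZs.of_le (by exact_mod_cast le_top)) (per_Zs n b hτ 0 0 hPp)
    (hN.trans (ENNReal.ofReal_le_ofReal (le_max_left _ _))) j y').1 (by omega)
  have h2 : ‖iteratedFDeriv ℝ j (UU n b q (h * Real.sqrt (1 - t)) 0) y'‖ ≤ M := by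
    refine (hCf j _ hh' y').trans ?_
    have hr : (1 + PP (h * Real.sqrt (1 - t)) y') ^ (-(aa n) - (j : ℝ) / 2) ≤ 1 :=
      Real.rpow_le_one_of_one_le_of_nonpos (nrm_rho_one _ _) (by
        have : (0 : ℝ) ≤ (j : ℝ) / 2 := by positivity
        linarith)
    have hr0 : 0 ≤ (1 + PP (h * Real.sqrt (1 - t)) y') ^ (-(aa n) - (j : ℝ) / 2) :=
      Real.rpow_nonneg (nrm_rho_pos _ _).le _
    calc _ ≤ |Cf j| * 1 := mul_le_mul (le_abs_self _) hr hr0 (abs_nonneg _)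
      _ = |Cf j| := mul_one _
      _ ≤ M := Finset.single_le_sum (f := fun j => |Cf j|) (fun _ _ => abs_nonneg _)
          (Finset.mem_range.2 (by omega))
  have hdec : Zs n b (1 - t) 0 0 (w t) =
      UU n b q (h * Real.sqrt (1 - t)) 0 + Zs n b (1 - t) 0 0 (Pert n b q h 1 w t) := by
    rw [Pert_one, Zs_sub, Zs_UU h ht1]
    funext z; simp
  have h3 : ‖iteratedFDeriv ℝ j (Zs n b (1 - t) 0 0 (w t)) y'‖ ≤ M + C * max A 0 := by
    rw [hdec, iteratedFDeriv_add_apply (hU0.of_le (by exact_mod_cast le_top)).contDiffAt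
      (hZs.of_le (by exact_mod_cast le_top)).contDiffAt]
    exact (norm_add_le _ _).trans (add_le_add h2 h1)
  rw [norm_iteratedFDeriv_Zs n b hτ 0 0 (hw.of_le (by exact_mod_cast le_top)), hy', smul_smul,
    mul_inv_cancel₀ hsτ.ne', one_smul, zero_add] at h3
  have hsT : 0 < Real.sqrt (1 - T) := Real.sqrt_pos.2 hT'
  have hle : Real.sqrt (1 - T) ≤ Real.sqrt (1 - t) := Real.sqrt_le_sqrt (by linarith [ht.2])
  have h4 : (1 - T) ^ aa n * Real.sqrt (1 - T) ^ 24 ≤ (1 - t) ^ aa n * Real.sqrt (1 - t) ^ j := by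
    refine mul_le_mul (Real.rpow_le_rpow hT'.le (by linarith [ht.2]) ha) ?_ (by positivity)
      (by positivity)
    exact (pow_le_pow_left₀ hsT.le hle 24).trans (pow_le_pow_of_le_one hsτ.le hs1 hj)
  rw [le_div_iff₀ (by positivity), mul_comm]
  exact (mul_le_mul_of_nonneg_right h4 (norm_nonneg _)).trans h3

/-- abstract continuation: induction on `m` for `Icc 0 (min T (m T₀))`, `L.localStmt`, time shift by
`sol_rescale` with `τ = 1` (`Zs_one`), `sol_mono`, `sol_glue`; start with `sol_point` -/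
theorem continuation (hn : 1 ≤ n) {h T B : ℝ} (hh : 0 < h) (hT : 0 ≤ T) {w₀ : R12 → ℂ}
    (hw₀ : ContDiff ℝ ∞ w₀) (hp : Per h w₀)
    (hB : ∀ T' ∈ Icc 0 T, ∀ w : ℝ → R12 → ℂ, Sol n h (Icc 0 T') w → w 0 = w₀ →
      ∀ j : ℕ, j ≤ 24 → ∀ y, ‖iteratedFDeriv ℝ j (w T') y‖ ≤ B) :
    ∃ w : ℝ → R12 → ℂ, Sol n h (Icc 0 T) w ∧ w 0 = w₀ := by
  obtain ⟨T₀, hT₀, hloc⟩ := L.localStmt n h B hh
  have key : ∀ m : ℕ, ∃ w : ℝ → R12 → ℂ, Sol n h (Icc 0 (min T (m * T₀))) w ∧ w 0 = w₀ := by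
    intro m
    induction m with
    | zero =>
      refine ⟨fun _ => w₀, ?_, rfl⟩
      rw [Nat.cast_zero, zero_mul, min_eq_right hT]
      exact sol_point hw₀ hp
    | succ m ih =>
      obtain ⟨w, hw, h0⟩ := ih
      have hm : 0 ≤ min T (m * T₀) := le_min hT (by positivity)
      have hmem : min T (m * T₀) ∈ Icc 0 (min T (m * T₀)) := ⟨hm, le_rfl⟩
      obtain ⟨v, hv, hv0⟩ := hloc (w (min T (m * T₀))) (sol_smooth hw hmem) (hw.per _ hmem)
        (hB _ ⟨hm, min_le_left _ _⟩ w hw h0)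
      have hle : min T (m * T₀) ≤ min T ((m + 1 : ℕ) * T₀) :=
        min_le_min le_rfl (by push_cast; linarith)
      have hle' : min T ((m + 1 : ℕ) * T₀) ≤ min T (m * T₀) + T₀ := by
        rw [← min_add_add_right]
        exact min_le_min (by linarith) (by push_cast; linarith)
      have h1 := sol_rescale (b := 0) (J' := Icc (min T (m * T₀)) (min T ((m + 1 : ℕ) * T₀))) hn hv
        one_pos (-min T (m * T₀)) 0 0 fun s hs => ⟨by linarith [hs.1], by linarith [hs.2]⟩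
      simp only [Real.sqrt_one, mul_one, Zs_one] at h1
      refine ⟨_, sol_glue hm hle hw h1 ?_, ?_⟩
      · rw [one_mul, neg_add_cancel, hv0]
      · simp only [if_pos hm, h0]
  obtain ⟨m, hm⟩ := exists_nat_ge (T / T₀)
  obtain ⟨w, hw, h0⟩ := key m
  rw [min_eq_left ((div_le_iff₀ hT₀).1 hm)] at hw
  exact ⟨w, hw, h0⟩

theorem ap_of_apb (hS : SobStmt) (hU : UUStmt) (hq : Prof n b q) {k : ℕ} (hk : 80 ≤ k)
    {T δT CT : ℝ} (hT : T ∈ Ico (0 : ℝ) 1) (h : APB n b q k T δT CT) : AP n b q k T δT CT := by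
  refine ⟨h, ?_⟩
  intro δ h' hh hδ hδT w₀ hw₀ hp hN
  obtain ⟨B, hB⟩ := deriv_bound hS hU hq hk hT.2 (CT * δ)
  refine continuation (B := B) hq.npos hh hT.1 hw₀ hp ?_
  intro T' hT' w hw he j hj y
  have hm : T' ∈ Icc (0 : ℝ) T' := ⟨hT'.1, le_rfl⟩
  refine hB h' ⟨hh.le, hδ.trans (hδT.trans h.le_one)⟩ T' hT' w (sol_smooth hw hm) (hw.per _ hm) ?_
    j hj y
  exact (h.bound δ h' hh hδ hδT T' w hT'.2 hw (by rw [he]; exact hN) T' hm).1

end

end Crest.Agent.R086.K
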