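import Crest.Agent.R086.K.Lin

open MeasureTheory Set Filter Topology
open scoped ContDiff ComplexConjugate ENNReal
open Crest.AnalysisR.PDE.NLS

namespace Crest.Agent.R086.K

open Crest.Agent.R086.E

noncomputable section

/-! # Families of small perturbations: bounds and compactness -/

variable {n : ℕ} {b : ℝ} {q : ℝ → ℂ}

/-- For `T < 1`, eventually `T ≤ t l` and `A δ l ≤ δT`; `APB.bound` with `δ := A * δ l` for the
restriction of `w l` to `[0,T]`, `Pert_eq`, `Src_eq`, `nrmT_const_mul`.  For the last part apply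
`CompactStmt` with `B T = if T = 0 then A else` the bound of the first part (`choose`), `nrmT_zero`. -/
theorem fam (hU : UUStmt) (hC : CompactStmt) (hq : Prof n b q) {k : ℕ} (hk : 100 ≤ k)
    (hAP : ∀ T ∈ Ico (0 : ℝ) 1, ∃ δT CT : ℝ, APB n b q k T δT CT) {A : ℝ} (hA : 0 < A)
    {δ h t : ℕ → ℝ} {w : ℕ → ℝ → R12 → ℂ} (hδ : ∀ l, 0 < δ l) (hδ0 : Tendsto δ atTop (𝓝 0))
    (hh : ∀ l, 0 < h l ∧ h l ≤ 1 ∧ h l ≤ A * δ l) (ht : ∀ l, t l ∈ Ico (0 : ℝ) 1)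
    (ht1 : Tendsto t atTop (𝓝 1)) (hw : ∀ l, Sol n (h l) (Icc 0 (t l)) (w l))
    (h0 : ∀ l, nrm k (h l) (fun y => w l 0 y - UU n b q (h l) 0 y) ≤ ENNReal.ofReal (A * δ l)) :
    (∀ T ∈ Ico (0 : ℝ) 1, ∃ B : ℝ, 0 ≤ B ∧ ∀ᶠ l in atTop, ∀ s ∈ Icc 0 T,
      nrmT n b k (h l) s (Pert n b q (h l) (δ l)⁻¹ (w l) s) ≤ ENNReal.ofReal B) ∧
    (∀ T ∈ Ico (0 : ℝ) 1, ∀ ε : ℝ, 0 < ε → ∀ᶠ l in atTop, ∀ s ∈ Icc 0 T,
      nrmT n b k (h l) s (fun y => ((1 - s : ℝ) : ℂ) * Src n b q (h l) (δ l)⁻¹ (w l) s y)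
        ≤ ENNReal.ofReal ε) ∧
    (∀ l, nrm k (h l) (Pert n b q (h l) (δ l)⁻¹ (w l) 0) ≤ ENNReal.ofReal A) ∧
    ∃ (φ : ℕ → ℕ) (v : ℝ → R12 → ℂ), StrictMono φ ∧
      (∀ T ∈ Ico (0 : ℝ) 1, Lin n b q (k - 20) 0 (Icc 0 T) v 0) ∧
      nrm (k - 20) 0 (v 0) ≤ ENNReal.ofReal A ∧
      ∀ T ∈ Ico (0 : ℝ) 1, ∀ ϱ ε : ℝ, 0 < ε → ∀ᶠ l in atTop, ∀ s ∈ Icc 0 T, ∀ y : R12, ‖y‖ ≤ ϱ →
        ‖Pert n b q (h (φ l)) (δ (φ l))⁻¹ (w (φ l)) s y - v s y‖ ≤ ε := by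
  have hlin : ∀ l (c : ℝ), Lin n b q k (h l) (Icc 0 (t l)) (Pert n b q (h l) c (w l))
      (Src n b q (h l) c (w l)) := fun l c =>
    sol_lin hU hq k (hh l).1 c (fun s hs => hs.2.trans_lt (ht l).2) (hw l)
  have hn : ∀ l, ‖(((δ l)⁻¹ : ℝ) : ℂ)‖ = (δ l)⁻¹ := fun l => by
    rw [Complex.norm_real, Real.norm_eq_abs, abs_of_pos (inv_pos.2 (hδ l))]
  have hP : ∀ l, ∀ s ∈ Icc 0 (t l), ∀ B : ℝ,
      nrmT n b k (h l) s (Pert n b q (h l) 1 (w l) s) ≤ ENNReal.ofReal (B * δ l) →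
      nrmT n b k (h l) s (Pert n b q (h l) (δ l)⁻¹ (w l) s) ≤ ENNReal.ofReal B := by
    intro l s hs B hB
    rw [Pert_eq, nrmT_const_mul _ _ _ ((ck_mono (hlin l 1).reg (by omega)).diff s hs), hn]
    refine (mul_le_mul_right hB _).trans ?_
    rw [← ENNReal.ofReal_mul (inv_pos.2 (hδ l)).le]
    refine le_of_eq (congrArg _ ?_)
    have := (hδ l).ne'
    field_simp
  have hS : ∀ l, ∀ s ∈ Icc 0 (t l), ∀ B : ℝ,
      nrmT n b k (h l) s (fun y => ((1 - s : ℝ) : ℂ) * Src n b q (h l) 1 (w l) s y) ≤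
        ENNReal.ofReal (B * δ l) →
      nrmT n b k (h l) s (fun y => ((1 - s : ℝ) : ℂ) * Src n b q (h l) (δ l)⁻¹ (w l) s y) ≤
        ENNReal.ofReal B := by
    intro l s hs B hB
    rw [Src_eq, nrmT_const_mul _ _ _ (contDiff_const.mul ((hlin l 1).regS.diff s hs)), hn]
    refine (mul_le_mul_right hB _).trans ?_
    rw [← ENNReal.ofReal_mul (inv_pos.2 (hδ l)).le]
    refine le_of_eq (congrArg _ ?_)
    have := (hδ l).ne'
    field_simp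
  have hAδ : Tendsto (fun l => A * δ l) atTop (𝓝 0) := by simpa using hδ0.const_mul A
  have key : ∀ T ∈ Ico (0 : ℝ) 1, ∃ CT : ℝ, 1 ≤ CT ∧ ∀ᶠ l in atTop, T ≤ t l ∧ ∀ s ∈ Icc 0 T,
      nrmT n b k (h l) s (Pert n b q (h l) 1 (w l) s) ≤ ENNReal.ofReal (CT * (A * δ l)) ∧
      nrmT n b k (h l) s (fun y => ((1 - s : ℝ) : ℂ) * Src n b q (h l) 1 (w l) s y) ≤
        ENNReal.ofReal (CT * (A * δ l) ^ 2) := by
    intro T hT
    obtain ⟨δT, CT, hap⟩ := hAP T hT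
    refine ⟨CT, hap.one_le, ?_⟩
    filter_upwards [ht1.eventually (le_mem_nhds hT.2), hAδ.eventually (ge_mem_nhds hap.pos)]
      with l h1 h2
    refine ⟨h1, fun s hs => ?_⟩
    have h3 := hap.bound _ _ (hh l).1 (hh l).2.2 h2 T (w l) le_rfl
      (sol_mono (hw l) (Icc_subset_Icc_right h1)) (h0 l) s hs
    exact ⟨h3.1, h3.2.1⟩
  have p1 : ∀ T ∈ Ico (0 : ℝ) 1, ∃ B : ℝ, 0 ≤ B ∧ ∀ᶠ l in atTop, ∀ s ∈ Icc 0 T,
      nrmT n b k (h l) s (Pert n b q (h l) (δ l)⁻¹ (w l) s) ≤ ENNReal.ofReal B := by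
    intro T hT
    obtain ⟨CT, hC1, hev⟩ := key T hT
    refine ⟨CT * A, by positivity, ?_⟩
    filter_upwards [hev] with l hl s hs
    exact hP l s ⟨hs.1, hs.2.trans hl.1⟩ _ (by rw [mul_assoc]; exact (hl.2 s hs).1)
  have p2 : ∀ T ∈ Ico (0 : ℝ) 1, ∀ ε : ℝ, 0 < ε → ∀ᶠ l in atTop, ∀ s ∈ Icc 0 T,
      nrmT n b k (h l) s (fun y => ((1 - s : ℝ) : ℂ) * Src n b q (h l) (δ l)⁻¹ (w l) s y)
        ≤ ENNReal.ofReal ε := by
    intro T hT ε hε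
    obtain ⟨CT, hC1, hev⟩ := key T hT
    have h1 : Tendsto (fun l => CT * A ^ 2 * δ l) atTop (𝓝 0) := by
      simpa using hδ0.const_mul (CT * A ^ 2)
    filter_upwards [hev, h1.eventually (ge_mem_nhds hε)] with l hl h2 s hs
    refine hS l s ⟨hs.1, hs.2.trans hl.1⟩ _ ((hl.2 s hs).2.trans (ENNReal.ofReal_le_ofReal ?_))
    calc CT * (A * δ l) ^ 2 = CT * A ^ 2 * δ l * δ l := by ring
      _ ≤ ε * δ l := mul_le_mul_of_nonneg_right h2 (hδ l).le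
  have p3 : ∀ l, nrm k (h l) (Pert n b q (h l) (δ l)⁻¹ (w l) 0) ≤ ENNReal.ofReal A := by
    intro l
    rw [← nrmT_zero (n := n) (b := b)]
    refine hP l 0 ⟨le_rfl, (ht l).1⟩ _ ?_
    rw [nrmT_zero, Pert_one]
    exact h0 l
  refine ⟨p1, p2, p3, ?_⟩
  choose! B hB0 hB using p1
  have hh0 : Tendsto h atTop (𝓝 0) :=
    squeeze_zero (fun l => (hh l).1.le) (fun l => (hh l).2.2) hAδ
  obtain ⟨φ, v, hφ, hv1, hv2, hv3⟩ := hC n b q hq k hk h t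
    (fun l => Pert n b q (h l) (δ l)⁻¹ (w l)) (fun l => Src n b q (h l) (δ l)⁻¹ (w l))
    (fun T => if T = 0 then A else B T) (fun l => ⟨(hh l).1.le, (hh l).2.1⟩) hh0 ht ht1
    (fun l => hlin l _) (fun T hT => by
      split_ifs with hT0
      · subst hT0
        refine Eventually.of_forall fun l s hs => ?_
        rw [le_antisymm hs.2 hs.1, nrmT_zero]
        exact p3 l
      · exact hB T hT) p2
  refine ⟨φ, v, hφ, hv1, ?_, hv3⟩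
  have h1 := hv2 0 ⟨le_rfl, one_pos⟩
  rwa [nrmT_zero, if_pos rfl] at h1

end

end Crest.Agent.R086.K
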