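import Crest.Agent.R086.K.Lin

open MeasureTheory Set Filter Topology
open scoped ContDiff ComplexConjugate ENNReal
open Crest.AnalysisR.PDE.NLS

namespace Crest.Agent.R086.K

open Crest.Agent.R086.E

noncomputable section

/-! # The modulation parameters generate the symmetry modes -/

variable {n : ℕ} {b : ℝ} {q : ℝ → ℂ}

/-- `Real.cos_bound` if `|h s| ≤ 1`, otherwise `0 ≤ psi ≤ s² ≤ h² s⁴` -/
theorem abs_psi_sub_le (h s : ℝ) : |psi h s - s ^ 2| ≤ h ^ 2 * s ^ 4 := by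
  by_cases hh : h = 0
  · simp [psi, hh]
  rcases le_total |h * s| 1 with h1 | h1
  · have h2 := Real.cos_bound h1
    have h3 : 0 < h ^ 2 := by positivity
    have e : psi h s - s ^ 2 = -2 * (Real.cos (h * s) - (1 - (h * s) ^ 2 / 2)) / h ^ 2 := by
      rw [psi, if_neg hh]; field_simp; ring
    rw [e, abs_div, abs_mul, abs_of_pos h3, div_le_iff₀ h3, abs_neg, abs_two]
    rw [← abs_pow, abs_of_nonneg (by positivity : 0 ≤ (h * s) ^ 4)] at h2
    have : 0 ≤ (h * s) ^ 4 := by positivity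
    nlinarith
  · have h2 : 1 ≤ (h * s) ^ 2 := by rwa [← sq_abs, one_le_sq_iff₀ (abs_nonneg _)]
    have h3 := psi_nonneg h s
    have h4 := psi_le_sq h s
    rw [abs_of_nonpos (by linarith)]
    nlinarith [mul_le_mul_of_nonneg_left h2 (sq_nonneg s)]

theorem abs_PP_sub_le (h : ℝ) (y : R12) : |PP h y - PP 0 y| ≤ h ^ 2 * ‖y‖ ^ 4 := by
  rw [show ‖y‖ ^ 4 = (‖y‖ ^ 2) ^ 2 by ring, PP_zero, EuclideanSpace.real_norm_sq_eq, PP,
    ← Finset.sum_sub_distrib]
  refine (Finset.abs_sum_le_sum_abs _ _).trans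
    ((Finset.sum_le_sum fun i _ => abs_psi_sub_le h (y i)).trans ?_)
  rw [← Finset.mul_sum]
  refine mul_le_mul_of_nonneg_left (le_trans (le_of_eq ?_)
    (Finset.sum_sq_le_sq_sum_of_nonneg fun i _ => sq_nonneg (y i))) (sq_nonneg h)
  exact Finset.sum_congr rfl fun i _ => by ring

/-- `q` is Lipschitz on `[0, ∞)` (`Prof.symb 1`) -/
theorem UU_sub_le (hq : Prof n b q) : ∃ L : ℝ, 0 ≤ L ∧ ∀ (h : ℝ) (y : R12),
    ‖UU n b q h 0 y - UU n b q 0 0 y‖ ≤ L * (h ^ 2 * ‖y‖ ^ 4) := by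
  obtain ⟨C, hC⟩ := hq.symb 1
  refine ⟨|C| / 4, by positivity, fun h y => ?_⟩
  have h1 := (convex_Ici (0 : ℝ)).norm_image_sub_le_of_norm_deriv_le (f := q) (C := |C|)
    (fun ρ _ => hq.smooth.differentiable (by simp) ρ) (fun ρ hρ => by
      have h2 := hC ρ hρ
      have h3 : (0 : ℝ) ≤ ρ := hρ
      have h4 : 0 ≤ aa n := by unfold aa; positivity
      rw [iteratedDeriv_one] at h2
      refine h2.trans ((mul_le_mul_of_nonneg_right (le_abs_self C) (by positivity)).trans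
        (mul_le_of_le_one_right (abs_nonneg C) ?_))
      exact Real.rpow_le_one_of_one_le_of_nonpos (by linarith) (by push_cast; linarith))
    (x := PP 0 y / 4) (y := PP h y / 4) (div_nonneg (PP_nonneg _ _) (by norm_num))
    (div_nonneg (PP_nonneg _ _) (by norm_num))
  rw [← sub_div, Real.norm_eq_abs, abs_div, Nat.abs_ofNat] at h1
  have h2 := mul_le_mul_of_nonneg_left (abs_PP_sub_le h y) (abs_nonneg C)
  simp only [UU, cp, sub_zero, Real.log_one, Complex.ofReal_zero, mul_zero, Complex.exp_zero,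
    one_mul, mul_one]
  linarith

theorem helper24_Zs_eq {T : ℝ} (hT : 0 < T) (s ϑ : ℝ) (x y : R12) :
    Zs n b T (-(s • x)) ϑ (UU n b q 0 0) y =
      Complex.exp (-Complex.I * ϑ) * UU n b q 0 (1 - T⁻¹) (y - (s * (Real.sqrt T)⁻¹) • x) := by
  have hs : 0 < Real.sqrt T := Real.sqrt_pos.2 hT
  have e1 : -(s • x) + Real.sqrt T • y = Real.sqrt T • (y - (s * (Real.sqrt T)⁻¹) • x) := by
    rw [smul_sub, smul_smul, mul_left_comm, mul_inv_cancel₀ hs.ne', mul_one]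
    abel
  have e2 : cp T⁻¹ (-(aa n : ℂ) + Complex.I * b) = cp T ((aa n : ℂ) - Complex.I * b) := by
    unfold cp
    rw [Real.log_inv]
    congr 1
    push_cast
    ring
  simp only [Zs, UU, sub_zero, cp_one_left, one_mul, mul_one, sub_sub_cancel, e1, e2, PP_zero,
    norm_smul, mul_pow, Real.norm_eq_abs, sq_abs, Real.sq_sqrt hT.le, mul_assoc]
  congr 3
  field_simp

/-- For `T = 1 + s c₁ > 0`: `Zs T (-s x) (s c₀) (U₀ 0) y = e^{-i s c₀} U₀ (1 - 1/T) (y - (s/√T) x)`;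
chain rule with the joint differentiability of `UU` at `(0, y)` (`UUStmt` part 1). -/
theorem hasDerivAt_mod (hU : UUStmt) (hq : Prof n b q) (c₀ c₁ : ℝ) (x y : R12) :
    HasDerivAt (fun s : ℝ => Zs n b (1 + s * c₁) (-(s • x)) (s * c₀) (UU n b q 0 0) y)
      (-mode n b q c₀ c₁ x 0 y) 0 := by
  set F : ℝ × R12 → ℂ := fun p => UU n b q 0 p.1 p.2 with hF
  have hFd : DifferentiableAt ℝ F (0, y) :=
    (((hU n b q hq).1 0).contDiffAt ((isOpen_Iio.prod isOpen_univ).mem_nhds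
      (mk_mem_prod (mem_Iio.2 zero_lt_one) (mem_univ y)))).differentiableAt (by simp)
  set D := fderiv ℝ F (0, y) with hD
  have hD' : HasFDerivAt F D (0, y) := hFd.hasFDerivAt
  have d1 : deriv (fun s => UU n b q 0 s y) 0 = D (1, 0) := by
    have h1 : HasDerivAt (fun s : ℝ => ((s, y) : ℝ × R12)) (1, 0) 0 :=
      (hasDerivAt_id 0).prodMk (hasDerivAt_const 0 y)
    exact (hD'.comp_hasDerivAt (0 : ℝ) h1).deriv
  have d2 : fderiv ℝ (UU n b q 0 0) y x = D (0, x) := by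
    have h1 : HasFDerivAt (UU n b q 0 0) (D.comp (ContinuousLinearMap.inr ℝ ℝ R12)) y :=
      hD'.comp y (hasFDerivAt_prodMk_right (0 : ℝ) y)
    rw [h1.fderiv]
    rfl
  have hT : HasDerivAt (fun s : ℝ => 1 + s * c₁) c₁ 0 := by
    simpa using ((hasDerivAt_id (0 : ℝ)).mul_const c₁).const_add 1
  have g1 : HasDerivAt (fun s : ℝ => 1 - (1 + s * c₁)⁻¹) c₁ 0 := by
    have := (hT.inv (by simp)).const_sub 1
    simpa using this
  have g2 : HasDerivAt (fun s : ℝ => s * (Real.sqrt (1 + s * c₁))⁻¹) 1 0 := by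
    exact ((hasDerivAt_id' (0 : ℝ)).mul ((hT.sqrt (by simp)).inv (by simp))).congr_deriv (by simp)
  have g3 : HasDerivAt (fun s : ℝ => ((1 - (1 + s * c₁)⁻¹,
      y - (s * (Real.sqrt (1 + s * c₁))⁻¹) • x) : ℝ × R12)) (c₁, -x) 0 := by
    refine g1.prodMk ?_
    simpa using (g2.smul_const x).const_sub y
  have g4 : HasDerivAt (fun s : ℝ => F (1 - (1 + s * c₁)⁻¹,
      y - (s * (Real.sqrt (1 + s * c₁))⁻¹) • x)) (D (c₁, -x)) 0 :=
    hD'.comp_hasDerivAt_of_eq (0 : ℝ) g3 (by simp)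
  have g5 : HasDerivAt (fun s : ℝ => Complex.exp (-Complex.I * ((s * c₀ : ℝ) : ℂ)))
      (-Complex.I * c₀) 0 := by
    have h1 : HasDerivAt (fun s : ℝ => ((s * c₀ : ℝ) : ℂ)) (c₀ : ℂ) 0 := by
      simpa using ((hasDerivAt_id (0 : ℝ)).mul_const c₀).ofReal_comp
    simpa using (h1.const_mul (-Complex.I)).cexp
  have e : D (c₁, -x) = c₁ * D (1, 0) - D (0, x) := by
    have : ((c₁, -x) : ℝ × R12) = c₁ • ((1, 0) : ℝ × R12) - (0, x) := by simp
    rw [this, map_sub, map_smul, Complex.real_smul]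
  refine ((g5.mul g4).congr_deriv ?_).congr_of_eventuallyEq ?_
  · simp only [mode, d1, d2, e, hF]
    simp
    ring
  · have hev : ∀ᶠ s in 𝓝 (0 : ℝ), 0 < 1 + s * c₁ :=
      continuousAt_const.eventually_lt hT.continuousAt (by simp)
    filter_upwards [hev] with s hs
    exact helper24_Zs_eq hs s (s * c₀) x y

theorem helper23_amp (n : ℕ) (b c₀ c₁ : ℝ) {δ : ℕ → ℝ} (hδ0 : Tendsto δ atTop (𝓝 0)) :
    Tendsto (fun l => Complex.exp (-Complex.I * (δ l * c₀ : ℝ)) *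
      cp (1 + δ l * c₁) ((aa n : ℂ) - Complex.I * b)) atTop (𝓝 1) := by
  have h1 : ContinuousAt (fun s : ℝ => Real.log (1 + s * c₁)) 0 :=
    ContinuousAt.log (by fun_prop) (by simp)
  have h2 : ContinuousAt (fun s : ℝ => Complex.exp (-Complex.I * (s * c₀ : ℝ)) *
      cp (1 + s * c₁) ((aa n : ℂ) - Complex.I * b)) 0 := by
    unfold cp
    fun_prop
  simpa [cp, Function.comp_def] using h2.tendsto.comp hδ0

theorem helper23_pt (c₁ : ℝ) (x y : R12) {δ : ℕ → ℝ} (hδ0 : Tendsto δ atTop (𝓝 0)) :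
    Tendsto (fun l => -(δ l • x) + Real.sqrt (1 + δ l * c₁) • y) atTop (𝓝 y) := by
  have h2 : Continuous (fun s : ℝ => -(s • x) + Real.sqrt (1 + s * c₁) • y) := by fun_prop
  simpa [Function.comp_def] using (h2.tendsto 0).comp hδ0

theorem helper23_small {δ h : ℕ → ℝ} (hδ : ∀ l, 0 < δ l) (hδ0 : Tendsto δ atTop (𝓝 0))
    (hh : ∀ l, 0 ≤ h l ∧ h l ≤ δ l) {F : ℕ → ℂ} {g : ℕ → ℝ} {a : ℝ} (hg : Tendsto g atTop (𝓝 a))
    (hg0 : ∀ l, 0 ≤ g l) (hF : ∀ l, ‖F l‖ ≤ h l ^ 2 * g l) :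
    Tendsto (fun l => (((δ l)⁻¹ : ℝ) : ℂ) * F l) atTop (𝓝 0) := by
  refine squeeze_zero_norm (fun l => ?_) (by simpa using hδ0.mul hg)
  rw [norm_mul, Complex.norm_real, Real.norm_of_nonneg (inv_pos.2 (hδ l)).le,
    inv_mul_le_iff₀ (hδ l), ← mul_assoc, ← sq]
  exact (hF l).trans
    (mul_le_mul_of_nonneg_right (pow_le_pow_left₀ (hh l).1 (hh l).2 2) (hg0 l))

/-- `hasDerivAt_mod` (`hasDerivAt_iff_tendsto_slope_zero`), and the two corrections are `O(δ)` by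
`UU_sub_le`, `norm_Zs` -/
theorem mode_limit (hU : UUStmt) (hq : Prof n b q) (c₀ c₁ : ℝ) (x y : R12) {δ h : ℕ → ℝ}
    (hδ : ∀ l, 0 < δ l) (hδ0 : Tendsto δ atTop (𝓝 0)) (hh : ∀ l, 0 ≤ h l ∧ h l ≤ δ l) :
    Tendsto (fun l => (((δ l)⁻¹ : ℝ) : ℂ) *
      (Zs n b (1 + δ l * c₁) (-(δ l • x)) (δ l * c₀) (UU n b q (h l) 0) y
        - UU n b q (h l * Real.sqrt (1 + δ l * c₁)) 0 y)) atTop (𝓝 (-mode n b q c₀ c₁ x 0 y)) := by
  obtain ⟨L, hL, H⟩ := UU_sub_le hq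
  have t1 := (hasDerivAt_iff_tendsto_slope_zero.1 (hasDerivAt_mod hU hq c₀ c₁ x y)).comp
    (tendsto_nhdsWithin_iff.2 ⟨hδ0, Eventually.of_forall fun l => (hδ l).ne'⟩)
  have t2 := helper23_small hδ hδ0 hh
    (F := fun l => Zs n b (1 + δ l * c₁) (-(δ l • x)) (δ l * c₀) (UU n b q (h l) 0) y
      - Zs n b (1 + δ l * c₁) (-(δ l • x)) (δ l * c₀) (UU n b q 0 0) y)
    ((helper23_amp n b c₀ c₁ hδ0).norm.mul
      (((helper23_pt c₁ x y hδ0).norm.pow 4).const_mul L)) (fun l => by positivity) fun l => by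
      rw [Zs, Zs, ← mul_sub, norm_mul]
      exact (mul_le_mul_of_nonneg_left (H _ _) (norm_nonneg _)).trans (le_of_eq (by ring))
  have t3 := helper23_small hδ hδ0 hh
    (F := fun l => UU n b q (h l * Real.sqrt (1 + δ l * c₁)) 0 y - UU n b q 0 0 y)
    ((((hδ0.mul_const c₁).const_add 1).sqrt.pow 2).const_mul (L * ‖y‖ ^ 4))
    (fun l => by positivity) fun l => (H _ _).trans (le_of_eq (by ring))
  have t4 := (t1.add t2).sub t3
  rw [add_zero, sub_zero] at t4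
  refine t4.congr fun l => ?_
  have e : Zs n b (1 + 0 * c₁) (-((0 : ℝ) • x)) (0 * c₀) (UU n b q 0 0) y = UU n b q 0 0 y := by
    simp [Zs, cp]
  simp only [Function.comp_apply, zero_add, e, Complex.real_smul]
  ring

/-- locally uniform convergence is preserved by rescalings tending to the identity -/
theorem data_limit (c₀ c₁ : ℝ) (x y : R12) {δ : ℕ → ℝ} (hδ0 : Tendsto δ atTop (𝓝 0))
    {f : ℕ → R12 → ℂ} {v : R12 → ℂ} (hv : Continuous v)
    (hf : ∀ ϱ ε : ℝ, 0 < ε → ∀ᶠ l in atTop, ∀ y : R12, ‖y‖ ≤ ϱ → ‖f l y - v y‖ ≤ ε) :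
    Tendsto (fun l => Zs n b (1 + δ l * c₁) (-(δ l • x)) (δ l * c₀) (f l) y) atTop (𝓝 (v y)) := by
  have t1 := helper23_pt c₁ x y hδ0
  have t2 : Tendsto (fun l => f l (-(δ l • x) + Real.sqrt (1 + δ l * c₁) • y)
      - v (-(δ l • x) + Real.sqrt (1 + δ l * c₁) • y)) atTop (𝓝 0) := by
    refine (NormedAddGroup.tendsto_nhds_zero).2 fun ε hε => ?_
    filter_upwards [hf (‖y‖ + 1) _ (half_pos hε), t1.norm.eventually (ge_mem_nhds (lt_add_one _))]
      with l h1 h2 using (h1 _ h2).trans_lt (half_lt_self hε)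
  have t3 := (helper23_amp n b c₀ c₁ hδ0).mul (t2.add ((hv.tendsto y).comp t1))
  rw [zero_add, one_mul] at t3
  exact t3.congr fun l => by simp only [Function.comp_apply, sub_add_cancel, Zs]

end

end Crest.Agent.R086.K
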