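import Crest.Agent.R086.K.Lin

open MeasureTheory Set Filter Topology
open scoped ContDiff ComplexConjugate ENNReal
open Crest.AnalysisR.PDE.NLS

namespace Crest.Agent.R086.K

open Crest.Agent.R086.E

noncomputable section

/-! # Two applications of the Lasota–Yorke inequality -/

variable {n : ℕ} {b : ℝ} {q : ℝ → ℂ}

/-- `LowStmt` for `f = Zs (1-s) 0 0 (zs l s)`: globally `‖f‖ ≤ C_S B` (`sup_le` at level `k`), on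
`‖y‖ ≤ ϱ` `‖f y‖ ≤ C D + η'` (`sup_le` at level `k'` with `h = 0`, `Zs_sub`, `norm_Zs`,
`(1-s)^a ≤ 1`, `‖√(1-s) • y‖ ≤ ϱ`). -/
theorem low_le (hS : SobStmt) (hL : LowStmt) {k k' : ℕ} (hk : 80 ≤ k) (hk' : 80 ≤ k') :
    ∃ C : ℝ, 0 < C ∧ ∀ T ∈ Ico (0 : ℝ) 1, ∀ (hs : ℕ → ℝ) (zs : ℕ → ℝ → R12 → ℂ) (z : ℝ → R12 → ℂ)
      (B : ℝ), 0 ≤ B → (∀ l, hs l ∈ Icc (0 : ℝ) 1) →
      (∀ᶠ l in atTop, ∀ s ∈ Icc 0 T, ContDiff ℝ k (zs l s) ∧ Per (hs l) (zs l s) ∧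
        nrmT n b k (hs l) s (zs l s) ≤ ENNReal.ofReal B) →
      (∀ s ∈ Icc 0 T, ContDiff ℝ k' (z s)) →
      (∀ ϱ ε : ℝ, 0 < ε → ∀ᶠ l in atTop, ∀ s ∈ Icc 0 T, ∀ y : R12, ‖y‖ ≤ ϱ →
        ‖zs l s y - z s y‖ ≤ ε) →
      ∀ η : ℝ, 0 < η → ∀ᶠ l in atTop, ∀ s ∈ Icc 0 T, ∀ D : ℝ, 0 ≤ D →
        nrmT n b k' 0 s (z s) ≤ ENNReal.ofReal D →
        lowT n b (hs l) s (zs l s) ≤ ENNReal.ofReal (C * D + η) := by
  obtain ⟨C₁, hC₁, h1⟩ := sup_le (n := n) (b := b) hS hk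
  obtain ⟨C₂, hC₂, h2⟩ := sup_le (n := n) (b := b) hS hk'
  obtain ⟨C₃, hC₃, h3⟩ := hL
  refine ⟨C₃ * C₂, by positivity, ?_⟩
  intro T hT hs zs z B hB hhs hzs hz hconv η hη
  obtain ⟨ϱ, hϱ⟩ := h3 (η / (2 * (C₁ * B + 1))) (by positivity)
  filter_upwards [hzs, hconv ϱ (η / (2 * C₃)) (by positivity)] with l a1 a2 s hsT D hD hzD
  have hs1 : s ∈ Ico (0 : ℝ) 1 := ⟨hsT.1, lt_of_le_of_lt hsT.2 hT.2⟩
  have hτ : 0 < 1 - s := by linarith [hs1.2]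
  have hτ1 : 1 - s ≤ 1 := by linarith [hs1.1]
  have hq0 := Real.sqrt_nonneg (1 - s)
  have hq1 : Real.sqrt (1 - s) ≤ 1 := Real.sqrt_le_one.2 hτ1
  obtain ⟨b1, b2, b3⟩ := a1 s hsT
  have c1 := h1 (hs l) (hhs l) s hs1 _ B hB b1 b2 b3
  have c2 := h2 0 ⟨le_rfl, zero_le_one⟩ s hs1 _ D hD (hz s hsT) (fun h => absurd rfl h) hzD
  have c3 : ∀ y : R12, ‖y‖ ≤ ϱ → ‖Zs n b (1 - s) 0 0 (zs l s) y‖ ≤ C₂ * D + η / (2 * C₃) := by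
    intro y hy
    have d1 : ‖Zs n b (1 - s) 0 0 (zs l s) y - Zs n b (1 - s) 0 0 (z s) y‖ ≤ η / (2 * C₃) := by
      rw [← congrFun (Zs_sub (1 - s) 0 0 (zs l s) (z s)) y, norm_Zs hτ]
      have d2 : (1 - s) ^ aa n ≤ 1 := Real.rpow_le_one hτ.le hτ1 (by unfold aa; positivity)
      have d3 : ‖(0 : R12) + Real.sqrt (1 - s) • y‖ ≤ ϱ := by
        rw [zero_add, norm_smul, Real.norm_of_nonneg hq0]
        exact (mul_le_of_le_one_left (norm_nonneg _) hq1).trans hy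
      exact (mul_le_of_le_one_left (norm_nonneg _) d2).trans (a2 s hsT _ d3)
    have d4 := norm_le_insert' (Zs n b (1 - s) 0 0 (zs l s) y) (Zs n b (1 - s) 0 0 (z s) y)
    linarith [c2 y]
  have c4 := hϱ (hs l * Real.sqrt (1 - s))
    ⟨mul_nonneg (hhs l).1 hq0, mul_le_one₀ (hhs l).2 hq0 hq1⟩ _ (C₁ * B) _ (by positivity)
    (by positivity) c1 c3
  refine c4.trans (ENNReal.ofReal_le_ofReal ?_)
  have e1 : η / (2 * (C₁ * B + 1)) * (C₁ * B) ≤ η / 2 := by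
    rw [div_mul_eq_mul_div, div_le_div_iff₀ (by positivity) (by positivity)]
    nlinarith
  have e2 : C₃ * (C₂ * D + η / (2 * C₃)) = C₃ * C₂ * D + η / 2 := by field_simp
  linarith

/-- `C_L` from `low_le`; `ε_D = 1 / (8 C C_L)`; `A₂ = C (A + 1 + (C_L D + 1))`; `τ₁ ≤ min (1/8) (1 - t₀)`
with `C (τ₁ / (1 - t₀))^μ A₂ ≤ 1/8`.  `EnAt` (b) on `[0, t₀]` and on `[t₀, 1 - τ₁]` (`lin_mono`,
`nrmT_zero`), source `≤ min 1 (1 / (8 C))`, `η = min 1 (1 / (8 C))`. -/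
theorem two_step (hS : SobStmt) (hL : LowStmt) {k k' : ℕ} (hk : 80 ≤ k) (hk' : 80 ≤ k') {μ C : ℝ}
    (hμ : 0 < μ) (hC : 0 < C) (hE : EnAt n b q k μ C) :
    ∃ εD : ℝ, 0 < εD ∧ ∀ t₀ ∈ Ico (0 : ℝ) 1, ∀ A D : ℝ, 0 ≤ A → 0 ≤ D →
      ∃ τ₁ : ℝ, 0 < τ₁ ∧ τ₁ ≤ 1 / 8 ∧
        ∀ (hs : ℕ → ℝ) (zs Ss : ℕ → ℝ → R12 → ℂ) (z : ℝ → R12 → ℂ) (B : ℝ), 0 ≤ B →
        (∀ l, hs l ∈ Icc (0 : ℝ) 1) →
        (∀ᶠ l in atTop, Lin n b q k (hs l) (Icc 0 (1 - τ₁)) (zs l) (Ss l)) →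
        (∀ l, nrm k (hs l) (zs l 0) ≤ ENNReal.ofReal A) →
        (∀ᶠ l in atTop, ∀ s ∈ Icc 0 (1 - τ₁), nrmT n b k (hs l) s (zs l s) ≤ ENNReal.ofReal B) →
        (∀ ε : ℝ, 0 < ε → ∀ᶠ l in atTop, ∀ s ∈ Icc 0 (1 - τ₁),
          nrmT n b k (hs l) s (fun y => ((1 - s : ℝ) : ℂ) * Ss l s y) ≤ ENNReal.ofReal ε) →
        (∀ s ∈ Icc 0 (1 - τ₁), ContDiff ℝ k' (z s) ∧ nrmT n b k' 0 s (z s) ≤ ENNReal.ofReal D ∧
          (t₀ ≤ s → nrmT n b k' 0 s (z s) ≤ ENNReal.ofReal εD)) →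
        (∀ ϱ ε : ℝ, 0 < ε → ∀ᶠ l in atTop, ∀ s ∈ Icc 0 (1 - τ₁), ∀ y : R12, ‖y‖ ≤ ϱ →
          ‖zs l s y - z s y‖ ≤ ε) →
        ∀ᶠ l in atTop, nrmT n b k (hs l) (1 - τ₁) (zs l (1 - τ₁)) ≤ ENNReal.ofReal (1 / 2) := by
  obtain ⟨CL, hCL, hlow⟩ := low_le (n := n) (b := b) hS hL hk hk'
  refine ⟨1 / (8 * C * CL), by positivity, ?_⟩
  intro t₀ ht₀ A D hA hD
  have h1t : 0 < 1 - t₀ := by linarith [ht₀.2]
  set A₂ : ℝ := C * (A + 1 + (CL * D + 1)) with hA₂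
  have hA₂0 : 0 ≤ A₂ := by positivity
  have hcont : ContinuousAt (fun τ : ℝ => C * ((τ / (1 - t₀)) ^ μ * A₂)) 0 := by
    refine continuousAt_const.mul (ContinuousAt.mul ?_ continuousAt_const)
    exact ContinuousAt.rpow_const (continuousAt_id.div_const _) (Or.inr hμ.le)
  have hev : ∀ᶠ τ : ℝ in 𝓝[>] 0, C * ((τ / (1 - t₀)) ^ μ * A₂) < 1 / 8 := by
    refine nhdsWithin_le_nhds (hcont.eventually_lt continuousAt_const ?_)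
    simp [Real.zero_rpow hμ.ne']
  have hev2 : ∀ᶠ τ : ℝ in 𝓝[>] 0, τ < min (1 / 8) (1 - t₀) :=
    nhdsWithin_le_nhds (eventually_lt_nhds (lt_min (by norm_num) h1t))
  obtain ⟨τ₁, ⟨hτa, hτb⟩, hτ0⟩ := ((hev.and hev2).and self_mem_nhdsWithin).exists
  have hτ0 : 0 < τ₁ := hτ0
  have hτ8 : τ₁ ≤ 1 / 8 := (hτb.trans_le (min_le_left _ _)).le
  have hτt : τ₁ ≤ 1 - t₀ := (hτb.trans_le (min_le_right _ _)).le
  refine ⟨τ₁, hτ0, hτ8, ?_⟩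
  intro hs zs Ss z B hB hhs hLin h0 hBd hSrc hz hconv
  set σ : ℝ := min 1 (1 / (8 * C)) with hσ
  have hσ0 : 0 < σ := lt_min one_pos (by positivity)
  have hσ1 : σ ≤ 1 := min_le_left _ _
  have hσC : C * σ ≤ 1 / 8 := by
    have : σ ≤ 1 / (8 * C) := min_le_right _ _
    calc C * σ ≤ C * (1 / (8 * C)) := mul_le_mul_of_nonneg_left this hC.le
      _ = 1 / 8 := by field_simp
  have hT : 1 - τ₁ ∈ Ico (0 : ℝ) 1 := ⟨by linarith, by linarith⟩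
  have hreg : ∀ᶠ l in atTop, ∀ s ∈ Icc 0 (1 - τ₁), ContDiff ℝ k (zs l s) ∧ Per (hs l) (zs l s) ∧
      nrmT n b k (hs l) s (zs l s) ≤ ENNReal.ofReal B := by
    filter_upwards [hLin, hBd] with l hl hb s hs'
    refine ⟨(hl.reg.diff s hs').of_le ?_, hl.per s hs', hb s hs'⟩
    exact_mod_cast Nat.le_add_right k 2
  have hL' := hlow (1 - τ₁) hT hs zs z B hB hhs hreg (fun s hs' => (hz s hs').1) hconv σ hσ0
  filter_upwards [hLin, hL', hSrc σ hσ0] with l hl hlo hsr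
  have ht₀T : t₀ ≤ 1 - τ₁ := by linarith
  have hJ1 : Icc 0 t₀ ⊆ Icc 0 (1 - τ₁) := Icc_subset_Icc le_rfl ht₀T
  have hJ2 : Icc t₀ (1 - τ₁) ⊆ Icc 0 (1 - τ₁) := Icc_subset_Icc ht₀.1 le_rfl
  have e1 := (hE (hs l) (hhs l) 0 t₀ le_rfl ht₀.1 ht₀.2 (zs l) (Ss l) (lin_mono hl hJ1) A σ hA hσ0.le
    (by rw [nrmT_zero]; exact h0 l) (fun s hs' => hsr s (hJ1 hs'))).2 (CL * D + σ) (by positivity)
    (fun s hs' => hlo s (hJ1 hs') D hD (hz s (hJ1 hs')).2.1)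
  have e1' : nrmT n b k (hs l) t₀ (zs l t₀) ≤ ENNReal.ofReal A₂ := by
    refine e1.trans (ENNReal.ofReal_le_ofReal ?_)
    have hp : ((1 - t₀) / (1 - 0)) ^ μ ≤ 1 :=
      Real.rpow_le_one (by rw [sub_zero, div_one]; exact h1t.le)
        (by rw [sub_zero, div_one]; linarith [ht₀.1]) hμ.le
    have : ((1 - t₀) / (1 - 0)) ^ μ * A ≤ A := by
      simpa using mul_le_mul_of_nonneg_right hp hA
    rw [hA₂]
    exact mul_le_mul_of_nonneg_left (by linarith) hC.le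
  have hε0 : (0 : ℝ) ≤ 1 / (8 * C * CL) := by positivity
  have e2 := (hE (hs l) (hhs l) t₀ (1 - τ₁) ht₀.1 ht₀T hT.2 (zs l) (Ss l) (lin_mono hl hJ2) A₂ σ hA₂0
    hσ0.le e1' (fun s hs' => hsr s (hJ2 hs'))).2 (CL * (1 / (8 * C * CL)) + σ) (by positivity)
    (fun s hs' => hlo s (hJ2 hs') _ hε0 ((hz s (hJ2 hs')).2.2 hs'.1))
  refine e2.trans (ENNReal.ofReal_le_ofReal ?_)
  have h3 : C * (CL * (1 / (8 * C * CL))) = 1 / 8 := by field_simp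
  rw [sub_sub_cancel]
  nlinarith

end

end Crest.Agent.R086.K
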