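import Crest.Agent.R086.K.Apr
import Crest.Agent.R086.K.Exi
import Crest.Agent.R086.K.Fam
import Crest.Agent.R086.K.Mode
import Crest.Agent.R086.K.Two
import Crest.Agent.R086.C.Modes

open MeasureTheory Set Filter Topology
open scoped ContDiff ComplexConjugate ENNReal
open Crest.AnalysisR.PDE.NLS

namespace Crest.Agent.R086.K

open Crest.Agent.R086.E

noncomputable section

/-! # The key proposition -/

variable {n : ℕ} {b : ℝ} {q : ℝ → ℂ}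

/-- the data of the re-centred solution -/
theorem recentre (hU : UUStmt) (hR : RecStmt) (hq : Prof n b q) (k : ℕ) {D : ℝ} (hD : 0 < D) :
    ∃ A : ℝ, 2 ≤ A ∧ ∀ (δ h c₀ c₁ : ℝ) (x : R12) (f : R12 → ℂ), 0 < δ → δ * D ≤ 1 / 2 →
      h ∈ Icc (0 : ℝ) (1 / 2) → |c₀| ≤ D → |c₁| ≤ D → ‖x‖ ≤ D → ContDiff ℝ ∞ f → Per h f →
      nrm k h (fun y => f y - UU n b q h 0 y) ≤ ENNReal.ofReal δ →
      nrm k (h * Real.sqrt (1 + δ * c₁)) (fun y => Zs n b (1 + δ * c₁) (-(δ • x)) (δ * c₀) f y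
        - UU n b q (h * Real.sqrt (1 + δ * c₁)) 0 y) ≤ ENNReal.ofReal (A * δ) := by
  obtain ⟨C, hC, H⟩ := hR n b q hq k
  refine ⟨max (C * (1 + D)) 2, le_max_right _ _, fun δ h c₀ c₁ x f hδ hδD hh h0 h1 hx hf hp hn => ?_⟩
  have e : ∀ c : ℝ, |c| ≤ D → |δ * c| ≤ δ * D := fun c hc => by
    rw [abs_mul, abs_of_pos hδ]; gcongr
  obtain ⟨H1, H2⟩ := H h hh (1 + δ * c₁) (-(δ • x)) (δ * c₀) (δ * D) hδD (by simpa using e c₁ h1)
    (by rw [norm_neg, norm_smul, Real.norm_of_nonneg hδ.le]; gcongr) (e c₀ h0)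
  have hk : ((k : ℕ) : WithTop ℕ∞) ≤ ((⊤ : ℕ∞) : WithTop ℕ∞) := by exact_mod_cast le_top
  have hUs : ∀ h' : ℝ, ContDiff ℝ k (UU n b q h' 0) := fun h' =>
    (contDiff_UU hU hq h' zero_lt_one).of_le hk
  have hd : ContDiff ℝ k (fun y => f y - UU n b q h 0 y) := (hf.of_le hk).sub (hUs h)
  have H3 := H1 (fun y => f y - UU n b q h 0 y) δ hδ.le hd
    (fun hh0 y i => by simp only [hp hh0, (hU n b q hq).2.1 h 0 hh0]) hn
  have H4 := nrm_add_le (h * Real.sqrt (1 + δ * c₁))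
    (contDiff_Zs n b (1 + δ * c₁) (-(δ • x)) (δ * c₀) hd)
    ((contDiff_Zs n b (1 + δ * c₁) (-(δ • x)) (δ * c₀) (hUs h)).sub
      (hUs (h * Real.sqrt (1 + δ * c₁))))
  rw [Zs_sub] at H3 H4
  simp only [sub_add_sub_cancel] at H4
  refine H4.trans ((add_le_add H3 H2).trans ?_)
  rw [← ENNReal.ofReal_add (by positivity) (by positivity)]
  refine ENNReal.ofReal_le_ofReal ?_
  calc C * δ + C * (δ * D) = C * (1 + D) * δ := by ring
    _ ≤ _ := by gcongr; exact le_max_left _ _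

/-- the final norm in terms of the normalised perturbation of the re-centred solution -/
theorem final_eq (hU : UUStmt) (hq : Prof n b q) (k : ℕ) {δ h T τ₁ ϑ : ℝ} {x : R12}
    {w : ℝ → R12 → ℂ} (hδ : 0 < δ) (hT : 0 < T) (hτ₁ : 0 < τ₁)
    (hw : ContDiff ℝ ∞ (w (T * (1 - τ₁))))
    (H : nrmT n b k (h * Real.sqrt T) (1 - τ₁) (Pert n b q (h * Real.sqrt T) δ⁻¹
      (fun s => Zs n b T x ϑ (w (0 + T * s))) (1 - τ₁)) ≤ ENNReal.ofReal (1 / 2)) :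
    nrm k (h * Real.sqrt (T * τ₁)) (fun y => Zs n b (T * τ₁) x ϑ (w (T * (1 - τ₁))) y
      - UU n b q (h * Real.sqrt (T * τ₁)) 0 y) ≤ ENNReal.ofReal (δ / 2) := by
  have hk : ((k : ℕ) : WithTop ℕ∞) ≤ ((⊤ : ℕ∞) : WithTop ℕ∞) := by exact_mod_cast le_top
  have h1 : 1 - τ₁ < 1 := by linarith
  have hd : ContDiff ℝ k (Pert n b q (h * Real.sqrt T) 1
      (fun s => Zs n b T x ϑ (w (0 + T * s))) (1 - τ₁)) := by
    rw [Pert_one, zero_add]
    exact ((contDiff_Zs n b T x ϑ hw).sub (contDiff_UU hU hq _ h1)).of_le hk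
  rw [Pert_eq, nrmT_const_mul _ _ _ hd, Pert_one, nrmT, Zs_sub, Zs_UU _ h1, sub_sub_cancel,
    Zs_Zs hτ₁ hT, mul_assoc, ← Real.sqrt_mul hT.le, smul_zero, add_zero, zero_add, zero_add,
    mul_comm τ₁ T, Complex.norm_real, Real.norm_of_nonneg (inv_pos.2 hδ).le] at H
  have H2 := mul_le_mul_right H (ENNReal.ofReal δ)
  rw [← mul_assoc, ← ENNReal.ofReal_mul hδ.le, ← ENNReal.ofReal_mul hδ.le, mul_inv_cancel₀ hδ.ne',
    ENNReal.ofReal_one, one_mul, mul_one_div] at H2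
  exact H2

theorem keyS (hS : SobStmt) (hN : SymNrmStmt) (hU : UUStmt) (hQ : QuadStmt) (hR : RecStmt)
    (hL : LowStmt) (hT : TorusStmt) (hE : EnergyStmt) (hC : CompactStmt) (hD : DecayStmt) :
    KeyStmt := by
  intro n b q hq hMS
  obtain ⟨kE, hkE⟩ := hE n b q hq
  obtain ⟨kD, hkD⟩ := hD n b q hq hMS
  obtain ⟨kU, hkU⟩ := Lin.unique hS hE hq
  obtain ⟨k, hk⟩ : ∃ k, k = kE + kD + kU + 100 := ⟨_, rfl⟩
  obtain ⟨μ, CE, hμ, hCE, hEn⟩ := hkE k (by omega)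
  replace hEn : EnAt n b q k μ CE := hEn
  obtain ⟨D, hD0, hDec⟩ := hkD (k - 20) (by omega)
  have hAP : ∀ T ∈ Ico (0 : ℝ) 1, ∃ δT CT : ℝ, AP n b q k T δT CT := fun T hT' => by
    obtain ⟨δT, CT, h⟩ := apriori hS hU hQ hT hq (k := k) (by omega) hCE hEn hT'
    exact ⟨δT, CT, ap_of_apb hS hU hq (by omega) hT' h⟩
  have hAPB : ∀ T ∈ Ico (0 : ℝ) 1, ∃ δT CT : ℝ, APB n b q k T δT CT := fun T hT' =>
    let ⟨δT, CT, h⟩ := hAP T hT'; ⟨δT, CT, h.toAPB⟩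
  obtain ⟨εD, hεD, h2⟩ := two_step hS hL (k := k) (k' := k - 20) (by omega) (by omega) hμ hCE hEn
  obtain ⟨t₀, ht₀, hDec⟩ := hDec εD hεD
  obtain ⟨A, hA, hrec⟩ := recentre hU hR hq k hD0
  obtain ⟨τ₁, hτ₁, hτ₁', h2⟩ := h2 t₀ ht₀ A D (by linarith) hD0.le
  obtain ⟨δ₂, C₂, hAP₂⟩ := hAPB (1 - τ₁ / 2) ⟨by linarith, by linarith⟩
  suffices H : ∃ δ₀ : ℝ, 0 < δ₀ ∧ KeyAt n b q k τ₁ δ₀ (max D C₂) by
    obtain ⟨δ₀, h0, H⟩ := H
    exact ⟨k, by omega, τ₁, δ₀, max D C₂, hτ₁, hτ₁', h0, lt_max_of_lt_left hD0, H⟩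
  by_contra hcon
  -- the sequence of counterexamples
  obtain ⟨t, ht⟩ : ∃ t : ℕ → ℝ, t = fun l : ℕ => 1 - 1 / ((l : ℝ) + 1) := ⟨_, rfl⟩
  have htm : ∀ l, t l ∈ Ico (0 : ℝ) 1 := fun l => by
    have h1 : 0 < 1 / ((l : ℝ) + 1) := Nat.one_div_pos_of_nat
    have h2 : 1 / ((l : ℝ) + 1) ≤ 1 := by
      rw [div_le_one (by positivity)]; linarith [Nat.cast_nonneg (α := ℝ) l]
    rw [ht]; constructor <;> linarith
  have ht1 : Tendsto t atTop (𝓝 1) := by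
    rw [ht]; simpa using tendsto_one_div_add_atTop_nhds_zero_nat.const_sub (1 : ℝ)
  choose dT CT hAPl using fun l => hAP (t l) (htm l)
  have hcx := fun l : ℕ => not_and.1 (not_exists.1 hcon
    (min (dT l) (min (1 / ((l : ℝ) + 1)) (min (1 / 2) (1 / (2 * D))))))
    (lt_min (hAPl l).pos (lt_min Nat.one_div_pos_of_nat (lt_min (by norm_num) (by positivity))))
  simp only [KeyAt, not_forall, exists_prop] at hcx
  choose δ h hh0 hhδ hδle w₀ hw₀ hp₀ hn₀ hbad using hcx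
  simp only [le_min_iff] at hδle
  have hδ : ∀ l, 0 < δ l := fun l => (hh0 l).trans_le (hhδ l)
  have hδ0 : Tendsto δ atTop (𝓝 0) :=
    squeeze_zero (fun l => (hδ l).le) (fun l => (hδle l).2.1) tendsto_one_div_add_atTop_nhds_zero_nat
  have hδD : ∀ l, δ l * D ≤ 1 / 2 := fun l => by
    have := (hδle l).2.2.2
    rw [le_div_iff₀ (by positivity)] at this
    linarith
  have hh2 : ∀ l, h l ≤ 1 / 2 := fun l => (hhδ l).trans (hδle l).2.2.1
  choose w hw hw0 using fun l => (hAPl l).exist (δ l) (h l) (hh0 l) (hhδ l) (hδle l).1 (w₀ l)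
    (hw₀ l) (hp₀ l) (hn₀ l)
  -- first limit
  obtain ⟨-, -, -, φ, v, hφ, hvL, hv0, hvc⟩ := fam hU hC hq (k := k) (by omega) hAPB one_pos hδ hδ0
    (fun l => ⟨hh0 l, by linarith [hh2 l], by rw [one_mul]; exact hhδ l⟩) htm ht1 hw
    (fun l => by rw [one_mul, hw0]; exact hn₀ l)
  obtain ⟨c₀, c₁, x, hc₀, hc₁, hx, hdec⟩ := hDec v hvL (by simpa using hv0)
  -- the re-centred solutions
  have hTb : ∀ l, |δ l * c₁| ≤ δ l * D := fun l => by
    rw [abs_mul, abs_of_pos (hδ l)]; exact mul_le_mul_of_nonneg_left hc₁ (hδ l).le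
  have hT0 : ∀ l, 0 < 1 + δ l * c₁ := fun l => by linarith [(abs_le.1 (hTb l)).1, hδD l]
  have hT2 : ∀ l, Real.sqrt (1 + δ l * c₁) ≤ 2 := fun l =>
    Real.sqrt_le_iff.2 ⟨by norm_num, by linarith [(abs_le.1 (hTb l)).2, hδD l]⟩
  have hDp : ∀ l, 0 < δ l * D := fun l => mul_pos (hδ l) hD0
  have hw' : ∀ l, Sol n (h l * Real.sqrt (1 + δ l * c₁)) (Icc 0 (t l / (1 + δ l * D)))
      (fun s => Zs n b (1 + δ l * c₁) (-(δ l • x)) (δ l * c₀) (w l (0 + (1 + δ l * c₁) * s))) :=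
    fun l => sol_rescale hq.npos (hw l) (hT0 l) 0 _ _ fun s hs => by
      have h1 := hs.2
      rw [le_div_iff₀ (by linarith [hDp l])] at h1
      refine ⟨by have := hT0 l; have := hs.1; positivity, ?_⟩
      nlinarith [(abs_le.1 (hTb l)).2, hs.1]
  have hδφ : Tendsto (fun l => δ (φ l)) atTop (𝓝 0) := hδ0.comp hφ.tendsto_atTop
  have ht' : Tendsto (fun l => t l / (1 + δ l * D)) atTop (𝓝 1) := by
    have := ht1.div ((hδ0.mul_const D).const_add 1) (by simp)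
    rw [zero_mul, add_zero, div_one] at this
    exact this
  have hh' : ∀ l, 0 < h l * Real.sqrt (1 + δ l * c₁) ∧ h l * Real.sqrt (1 + δ l * c₁) ≤ 1 ∧
      h l * Real.sqrt (1 + δ l * c₁) ≤ A * δ l := fun l => by
    have h1 : h l * Real.sqrt (1 + δ l * c₁) ≤ h l * 2 :=
      mul_le_mul_of_nonneg_left (hT2 l) (hh0 l).le
    refine ⟨mul_pos (hh0 l) (Real.sqrt_pos.2 (hT0 l)), by linarith [hh2 l], ?_⟩
    nlinarith [hhδ l, hδ l]
  obtain ⟨g1, g2, g3, ψ, v', hψ, hv'L, -, hv'c⟩ := fam hU hC hq (k := k) (by omega) hAPB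
    (A := A) (by linarith) (δ := fun l => δ (φ l))
    (h := fun l => h (φ l) * Real.sqrt (1 + δ (φ l) * c₁))
    (t := fun l => t (φ l) / (1 + δ (φ l) * D)) (fun l => hδ _) hδφ (fun l => hh' _)
    (fun l => ⟨div_nonneg (htm _).1 (by linarith [hDp (φ l)]),
      (div_le_self (htm _).1 (by linarith [hDp (φ l)])).trans_lt (htm _).2⟩)
    (ht'.comp hφ.tendsto_atTop) (fun l => hw' (φ l))
    (fun l => by
      simp only [mul_zero, add_zero, hw0]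
      exact hrec _ _ c₀ c₁ x _ (hδ _) (hδD _) ⟨(hh0 _).le, hh2 _⟩ hc₀ hc₁ hx (hw₀ _) (hp₀ _) (hn₀ _))
  -- identification of the second limit
  have h01 : (0 : ℝ) ∈ Ico (0 : ℝ) 1 := ⟨le_rfl, one_pos⟩
  have h00 : (0 : ℝ) ∈ Icc (0 : ℝ) 0 := ⟨le_rfl, le_rfl⟩
  have hdata : v' 0 = fun y => v 0 y - mode n b q c₀ c₁ x 0 y := by
    funext y
    have a1 := data_limit (n := n) (b := b) c₀ c₁ x y hδφ
      (f := fun l => Pert n b q (h (φ l)) (δ (φ l))⁻¹ (w (φ l)) 0)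
      ((hvL 0 h01).reg.diff 0 h00).continuous
      (fun ϱ ε hε => (hvc 0 h01 ϱ ε hε).mono fun l hl => hl 0 h00)
    have a2 := mode_limit hU hq c₀ c₁ x y (fun l => hδ (φ l)) hδφ
      (fun l => ⟨(hh0 (φ l)).le, hhδ (φ l)⟩)
    have a3 := (a1.add a2).comp hψ.tendsto_atTop
    refine tendsto_nhds_unique ?_ (by simpa only [sub_eq_add_neg] using a3)
    refine Metric.tendsto_nhds.2 fun ε hε => (hv'c 0 h01 ‖y‖ (ε / 2) (half_pos hε)).mono
      fun l hl => ?_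
    refine lt_of_le_of_lt (le_of_eq_of_le ?_ (hl 0 h00 y le_rfl)) (half_lt_self hε)
    rw [dist_eq_norm]
    congr 2
    simp only [Function.comp, Pert, Zs, mul_zero, add_zero]
    ring
  have hT₁ : 1 - τ₁ ∈ Ico (0 : ℝ) 1 := ⟨by linarith, by linarith⟩
  have hid : ∀ s ∈ Icc 0 (1 - τ₁), v' s = fun y => v s y - mode n b q c₀ c₁ x s y :=
    hkU (k - 20) (by omega) (1 - τ₁) hT₁.2 v' (fun s y => v s y - mode n b q c₀ c₁ x s y)
      (hv'L _ hT₁) (((hvL _ hT₁).sub (C.mode_lin hN hq c₀ c₁ x _ hT₁.2)).congr (fun _ _ _ => rfl)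
        (fun _ _ _ => by simp)) hdata
  -- the final estimate
  obtain ⟨B, hB, g1⟩ := g1 _ hT₁
  have hψt := hψ.tendsto_atTop
  have hχ : Tendsto (fun l => φ (ψ l)) atTop atTop := hφ.tendsto_atTop.comp hψt
  have e1 : ∀ᶠ l in atTop, 1 - τ₁ < t l / (1 + δ l * D) := ht'.eventually_const_lt hT₁.2
  have fin := h2 (fun l => h (φ (ψ l)) * Real.sqrt (1 + δ (φ (ψ l)) * c₁)) _ _ v' B hB
    (fun l => ⟨(hh' _).1.le, (hh' _).2.1⟩)
    ((hχ.eventually e1).mono fun l hl => sol_lin hU hq k (hh' _).1 (δ (φ (ψ l)))⁻¹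
      (fun s hs => hs.2.trans_lt hT₁.2) (sol_mono (hw' (φ (ψ l))) (Icc_subset_Icc_right hl.le)))
    (fun l => g3 (ψ l)) (hψt.eventually g1) (fun ε hε => hψt.eventually (g2 _ hT₁ ε hε))
    (fun s hs => ⟨((hv'L _ hT₁).reg.diff s hs).of_le (by exact_mod_cast Nat.le_add_right _ 2),
      by rw [hid s hs]; exact hdec s ⟨hs.1, hs.2.trans_lt hT₁.2⟩⟩)
    (hv'c _ hT₁)
  have e2 : ∀ᶠ l in atTop, δ l < δ₂ := hδ0.eventually_lt_const hAP₂.pos
  have e3 : ∀ᶠ l in atTop, δ l * D < τ₁ / 2 := by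
    simpa using (hδ0.mul_const D).eventually_lt_const (show 0 * D < τ₁ / 2 by linarith)
  obtain ⟨l, f1, f2, f3, f4⟩ :=
    (fin.and ((hχ.eventually e1).and ((hχ.eventually e2).and (hχ.eventually e3)))).exists
  generalize φ (ψ l) = m at f1 f2 f3 f4
  have b1 := (abs_le.1 (hTb m)).2
  have b2 : (1 + δ m * c₁) * (1 - τ₁) < 1 - τ₁ / 2 := by nlinarith [hDp m]
  have b3 : (1 + δ m * c₁) * (1 - τ₁) ≤ t m := by
    rw [lt_div_iff₀ (by linarith [hDp m])] at f2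
    nlinarith
  have b4 : Sol n (h m) (Icc 0 ((1 + δ m * c₁) * (1 - τ₁))) (w m) :=
    sol_mono (hw m) (Icc_subset_Icc_right b3)
  have b5 : δ m * D ≤ max D C₂ * δ m := by
    rw [mul_comm]; exact mul_le_mul_of_nonneg_right (le_max_left _ _) (hδ m).le
  refine hbad m ⟨w m, 1 + δ m * c₁, -(δ m • x), δ m * c₀, ?_, ?_, b2, b4, hw0 m, fun s hs y => ?_, ?_⟩
  · rw [add_sub_cancel_left]; exact (hTb m).trans b5
  · rw [norm_neg, norm_smul, Real.norm_of_nonneg (hδ m).le]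
    exact (mul_le_mul_of_nonneg_left hx (hδ m).le).trans b5
  · exact ((hAP₂.bound (δ m) (h m) (hh0 m) (hhδ m) f3.le _ (w m) b2.le b4
      (by rw [hw0]; exact hn₀ m) s hs).2.2 y).trans
      (mul_le_mul_of_nonneg_right (le_max_right _ _) (hδ m).le)
  · exact final_eq hU hq k (hδ m) (hT0 m) hτ₁
      (sol_smooth b4 ⟨mul_nonneg (hT0 m).le hT₁.1, le_rfl⟩) f1

end

end Crest.Agent.R086.K
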