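import Crest.Agent.R086.K.Sol

open MeasureTheory Set Filter Topology
open scoped ContDiff ComplexConjugate ENNReal
open Crest.AnalysisR.PDE.NLS

namespace Crest.Agent.R086.K

open Crest.Agent.R086.E

noncomputable section

/-! # A solution minus the profile solves the linearised equation -/

variable {n : ℕ} {b : ℝ} {q : ℝ → ℂ}

theorem ck_UU (hU : UUStmt) (hq : Prof n b q) (k : ℕ) (h : ℝ) {J : Set ℝ} (hJ : J ⊆ Iio 1) :
    Ck k J (UU n b q h) := by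
  exact ck_of_contDiffOn isOpen_Iio hJ ((hU n b q hq).1 h)

theorem contDiff_UU (hU : UUStmt) (hq : Prof n b q) (h : ℝ) {t : ℝ} (ht : t < 1) :
    ContDiff ℝ ∞ (UU n b q h t) := by
  have h1 := (hU n b q hq).1 h
  exact contDiffOn_univ.1 (h1.comp (f := fun y : R12 => (t, y))
    (contDiff_const.prodMk contDiff_id).contDiffOn fun y _ => ⟨ht, mem_univ _⟩)

/-- with `τ = 1 - t`: `PP (h √τ) ((√τ)⁻¹ • y) = PP h y / τ`, the same for `psi` (`PP_scale`,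
`psi_scale`), so `ErrT` is an explicit smooth function of `(t, y)` on `t < 1` -/
theorem ErrT_eq (h : ℝ) {t : ℝ} (ht : t < 1) (y : R12) :
    ErrT n b q h t y = cp (1 - t) (-(aa n : ℂ) + Complex.I * b - 1) *
      (-((h ^ 2 * (1 - t) : ℝ) : ℂ) *
        (deriv (deriv q) (PP h y / (1 - t) / 4) *
            ((∑ i : Fin 12, (psi h (y i) / (1 - t)) ^ 2 : ℝ) : ℂ) / 16
          + deriv q (PP h y / (1 - t) / 4) * ((PP h y / (1 - t) : ℝ) : ℂ) / 4)) := by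
  have h0 : 0 < 1 - t := sub_pos.2 ht
  have hs : Real.sqrt (1 - t) ≠ 0 := (Real.sqrt_pos.2 h0).ne'
  have e1 : PP (h * Real.sqrt (1 - t)) ((Real.sqrt (1 - t))⁻¹ • y) = PP h y / (1 - t) := by
    rw [PP_scale h _ hs, smul_smul, mul_inv_cancel₀ hs, one_smul, Real.sq_sqrt h0.le]
  have e2 : ∀ i : Fin 12, psi (h * Real.sqrt (1 - t)) (((Real.sqrt (1 - t))⁻¹ • y) i) =
      psi h (y i) / (1 - t) := fun i => by
    rw [psi_scale h _ hs, PiLp.smul_apply, smul_eq_mul, ← mul_assoc, mul_inv_cancel₀ hs, one_mul,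
      Real.sq_sqrt h0.le]
  have e3 : ((h * Real.sqrt (1 - t) : ℝ) : ℂ) ^ 2 = ((h ^ 2 * (1 - t) : ℝ) : ℂ) := by
    rw [← Complex.ofReal_pow, mul_pow, Real.sq_sqrt h0.le]
  unfold ErrT Err
  simp only [e1, e2, e3]

theorem h60_d1 (hq : Prof n b q) : ContDiff ℝ ∞ (deriv q) :=
  (contDiff_infty_iff_deriv.1 hq.smooth).2

theorem h60_d2 (hq : Prof n b q) : ContDiff ℝ ∞ (deriv (deriv q)) :=
  (contDiff_infty_iff_deriv.1 (h60_d1 hq)).2

theorem h60_psi (h : ℝ) (i : Fin 12) : ContDiff ℝ ∞ fun y : R12 => psi h (y i) :=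
  (contDiff_psi h).comp (by fun_prop)

/-- `ErrT_eq`, `ck_of_contDiffOn` -/
theorem ck_ErrT (hq : Prof n b q) (k : ℕ) (h : ℝ) {J : Set ℝ} (hJ : J ⊆ Iio 1) :
    Ck k J (ErrT n b q h) := by
  refine ck_of_contDiffOn isOpen_Iio hJ ?_
  have hne : ∀ p ∈ (Iio 1 ×ˢ univ : Set (ℝ × R12)), 1 - p.1 ≠ 0 := fun p hp =>
    (sub_pos.2 (show p.1 < 1 from hp.1)).ne'
  have c0 : ContDiff ℝ ∞ fun p : ℝ × R12 => 1 - p.1 := contDiff_const.sub contDiff_fst
  have c1 : ContDiffOn ℝ ∞ (fun p : ℝ × R12 => PP h p.2 / (1 - p.1)) (Iio 1 ×ˢ univ) :=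
    ((contDiff_PP h).comp contDiff_snd).contDiffOn.div c0.contDiffOn hne
  have c2 : ContDiffOn ℝ ∞ (fun p : ℝ × R12 => ∑ i : Fin 12, (psi h (p.2 i) / (1 - p.1)) ^ 2)
      (Iio 1 ×ˢ univ) := ContDiffOn.sum fun i _ =>
    (((h60_psi h i).comp contDiff_snd).contDiffOn.div c0.contDiffOn hne).pow 2
  have c3 : ContDiffOn ℝ ∞ (fun p : ℝ × R12 => cp (1 - p.1) (-(aa n : ℂ) + Complex.I * b - 1))
      (Iio 1 ×ˢ univ) := (contDiffOn_cp _).comp c0.contDiffOn fun p hp =>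
    sub_pos.2 (show p.1 < 1 from hp.1)
  have cR : ContDiff ℝ ∞ fun x : ℝ => (x : ℂ) := Complex.ofRealCLM.contDiff
  have c4 : ContDiff ℝ ∞ fun p : ℝ × R12 => ((h ^ 2 * (1 - p.1) : ℝ) : ℂ) :=
    cR.comp (contDiff_const.mul c0)
  refine (c3.mul (c4.contDiffOn.neg.mul
    (((((h60_d2 hq).comp_contDiffOn (c1.div_const 4)).mul (cR.comp_contDiffOn c2)).div_const 16).add
      ((((h60_d1 hq).comp_contDiffOn (c1.div_const 4)).mul (cR.comp_contDiffOn c1)).div_const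
        4)))).congr fun p hp => ?_
  exact ErrT_eq h hp.1 p.2

/-- `ErrT_eq`, `perG_PP`, `psi_periodic` -/
theorem per_ErrT (h : ℝ) {t : ℝ} (ht : t < 1) : Per h (ErrT n b q h t) := by
  intro hh y i
  have e1 := perG_PP h hh y i
  have e2 : ∀ j : Fin 12, psi h ((y + EuclideanSpace.single i (2 * Real.pi / h) : R12) j) =
      psi h (y j) := fun j => by
    rw [PiLp.add_apply, PiLp.single_apply]
    split_ifs
    · exact psi_periodic hh _
    · rw [add_zero]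
  rw [ErrT_eq h ht, ErrT_eq h ht]
  simp only [e1, e2]

theorem contDiff_Err (hq : Prof n b q) (h : ℝ) : ContDiff ℝ ∞ (Err q h) := by
  have cR : ContDiff ℝ ∞ fun x : ℝ => (x : ℂ) := Complex.ofRealCLM.contDiff
  have c1 := contDiff_PP h
  have c2 : ContDiff ℝ ∞ fun y : R12 => ∑ i : Fin 12, psi h (y i) ^ 2 :=
    ContDiff.sum fun i _ => (h60_psi h i).pow 2
  exact contDiff_const.mul
    (((((h60_d2 hq).comp (c1.div_const 4)).mul (cR.comp c2)).div_const 16).add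
      ((((h60_d1 hq).comp (c1.div_const 4)).mul (cR.comp c1)).div_const 4))

theorem h86_lap (c : ℂ) {f g : R12 → ℂ} (hf : ContDiff ℝ 2 f) (hg : ContDiff ℝ 2 g) (y : R12) :
    lap (fun y => c * (f y - g y)) y = c * (lap f y - lap g y) := by
  simp only [lap, ← Finset.sum_sub_distrib, Finset.mul_sum]
  refine Finset.sum_congr rfl fun i _ => ?_
  have := iteratedFDeriv_const_smul_apply' (a := c) (x := y) (i := 2) (hf.sub hg).contDiffAt
  simp only [smul_eq_mul] at this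
  rw [this, ContinuousMultilinearMap.smul_apply, fun_iteratedFDeriv_sub_apply hf.contDiffAt
    hg.contDiffAt, ContinuousMultilinearMap.sub_apply, smul_eq_mul]

/-- `lap` is additive and homogeneous on `C²` functions; `V1 (c z) + V2 conj (c z) = c (…)` for real `c` -/
theorem sol_lin (hU : UUStmt) (hq : Prof n b q) (k : ℕ) {h : ℝ} (hh : 0 < h) (c : ℝ) {J : Set ℝ}
    (hJ : J ⊆ Iio 1) {w : ℝ → R12 → ℂ} (hw : Sol n h J w) :
    Lin n b q k h J (Pert n b q h c w) (Src n b q h c w) := by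
  obtain ⟨-, h2, -, h4, -⟩ := hU n b q hq
  have u := ck_UU hU hq k h hJ
  have z := ck_sub (hw.reg k) u
  refine ⟨ck_const_mul _ (ck_sub (hw.reg _) (ck_UU hU hq _ h hJ)),
    ck_const_mul _ (ck_sub (ck_sub (ck_sub (ck_sub (ck_NL n (ck_add u z)) (ck_NL n u))
      (ck_mul (ck_V1 n u) z)) (ck_mul (ck_V2 n u) (ck_conj z))) (ck_ErrT hq k h hJ)),
    fun t ht h0 y i => ?_, fun t ht h0 y i => ?_, fun h0 => absurd h0 hh.ne', fun t ht y => ?_⟩
  · simp only [Pert, hw.per t ht h0 y i, h2 h t h0 y i]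
  · simp only [Src, hw.per t ht h0 y i, h2 h t h0 y i, per_ErrT h (hJ ht) h0 y i]
  · refine (((hw.eqn t ht y).sub (h4 h t hh.le (hJ ht) y).hasDerivWithinAt).const_mul
      (c : ℂ)).congr_deriv ?_
    have e := h86_lap c ((hw.reg 2).diff t ht) ((ck_UU hU hq 2 h hJ).diff t ht) y
    change lap (Pert n b q h c w t) y = _ at e
    rw [e]
    simp only [Pert, Src, Quad, ErrT, add_sub_cancel, map_mul, Complex.conj_ofReal]
    ring

theorem lin_mono {k : ℕ} {h : ℝ} {J J' : Set ℝ} {z S : ℝ → R12 → ℂ} (hz : Lin n b q k h J z S)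
    (hJ : J' ⊆ J) : Lin n b q k h J' z S :=
  ⟨ck_subset hz.reg hJ, ck_subset hz.regS hJ, fun t ht => hz.per t (hJ ht),
    fun t ht => hz.perS t (hJ ht), fun h0 => (hz.fin h0).imp fun _ hB t ht => hB t (hJ ht),
    fun t ht y => (hz.eqn t (hJ ht) y).mono hJ⟩

theorem helper51_hmem {h t : ℝ} (hh : h ∈ Icc (0 : ℝ) 1) (ht : t ∈ Ico (0 : ℝ) 1) :
    h * Real.sqrt (1 - t) ∈ Icc (0 : ℝ) 1 ∧ h * Real.sqrt (1 - t) ≤ h := by
  have h1 : Real.sqrt (1 - t) ≤ 1 := Real.sqrt_le_one.2 (by linarith [ht.1])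
  have h2 : h * Real.sqrt (1 - t) ≤ h := mul_le_of_le_one_right hh.1 h1
  exact ⟨⟨mul_nonneg hh.1 (Real.sqrt_nonneg _), h2.trans hh.2⟩, h2⟩

/-- Sobolev at order 0 in similarity variables -/
theorem sup_le (hS : SobStmt) {k : ℕ} (hk : 80 ≤ k) : ∃ C : ℝ, 0 < C ∧ ∀ h ∈ Icc (0 : ℝ) 1,
    ∀ t ∈ Ico (0 : ℝ) 1, ∀ (f : R12 → ℂ) (B : ℝ), 0 ≤ B → ContDiff ℝ k f → Per h f →
      nrmT n b k h t f ≤ ENNReal.ofReal B → ∀ y, ‖Zs n b (1 - t) 0 0 f y‖ ≤ C * B := by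
  obtain ⟨C, hC, H⟩ := hS k hk
  refine ⟨C, hC, fun h hh t ht f B hB hf hp hn y => ?_⟩
  have h1 := (H _ (helper51_hmem hh ht).1 _ B hB (contDiff_Zs n b _ 0 0 hf)
    (per_Zs n b (by linarith [ht.2]) 0 0 hp) hn 0 y).1 (by omega)
  rwa [norm_iteratedFDeriv_zero] at h1

theorem helper51_quad_diff {k : ℕ} {u f : R12 → ℂ} (hu : ContDiff ℝ k u) (hf : ContDiff ℝ k f) :
    ContDiff ℝ k fun y => Quad n (u y) (f y) := by
  have hc : ∀ {g : R12 → ℂ}, ContDiff ℝ k g → ContDiff ℝ k fun y => conj (g y) := fun hg =>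
    Complex.conjCLE.contDiff.comp hg
  unfold Quad NL V1 V2
  exact (((((hu.add hf).pow _).mul ((hc (hu.add hf)).pow _)).sub
    ((hu.pow _).mul ((hc hu).pow _))).sub
    ((contDiff_const.mul ((hu.pow _).mul ((hc hu).pow _))).mul hf)).sub
    ((contDiff_const.mul ((hu.pow _).mul ((hc hu).pow _))).mul (hc hf))

/-- `Zs_Src`, `nrm_sub_le`, `QuadStmt`, `UUStmt` (last part) with `h' = h √(1-t) ≤ h` -/
theorem src_le (hU : UUStmt) (hQ : QuadStmt) (hq : Prof n b q) {k : ℕ} (hk : 80 ≤ k) :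
    ∃ C : ℝ, 0 < C ∧ ∀ h ∈ Icc (0 : ℝ) 1, ∀ t ∈ Ico (0 : ℝ) 1, ∀ (w : ℝ → R12 → ℂ) (B : ℝ),
      0 ≤ B → B ≤ 1 → ContDiff ℝ ∞ (w t) → Per h (w t) →
      nrmT n b k h t (Pert n b q h 1 w t) ≤ ENNReal.ofReal B →
      nrmT n b k h t (fun y => ((1 - t : ℝ) : ℂ) * Src n b q h 1 w t y)
        ≤ ENNReal.ofReal (C * (B ^ 2 + h ^ 2)) := by
  obtain ⟨C₁, hC₁, H₁⟩ := hQ n b q hq k hk
  obtain ⟨C₂, hC₂, H₂⟩ := (hU n b q hq).2.2.2.2 k
  refine ⟨C₁ + C₂, by positivity, fun h hh t ht w B hB hB1 hw hp hn => ?_⟩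
  obtain ⟨hm, hle⟩ := helper51_hmem hh ht
  have hk' : (k : WithTop ℕ∞) ≤ ((⊤ : ℕ∞) : WithTop ℕ∞) := by exact_mod_cast le_top
  have hP : ContDiff ℝ k (Pert n b q h 1 w t) := by
    rw [Pert_one]
    exact (hw.sub (contDiff_UU hU hq h ht.2)).of_le hk'
  have hPp : Per h (Pert n b q h 1 w t) := by
    rw [Pert_one]
    intro h0 y i
    simp only [hp h0 y i, (hU n b q hq).2.1 h t h0 y i]
  have hZ : ContDiff ℝ k (Zs n b (1 - t) 0 0 (Pert n b q h 1 w t)) := contDiff_Zs n b _ 0 0 hP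
  have h1 := H₁ _ hm _ B hB hB1 hZ (per_Zs n b (by linarith [ht.2]) 0 0 hPp) hn
  have h2 := H₂ _ hm
  rw [nrmT, Zs_Src hq.npos h w ht.2]
  refine (nrm_sub_le _ (helper51_quad_diff ((contDiff_UU hU hq _ one_pos).of_le hk') hZ)
    ((contDiff_Err hq _).of_le hk')).trans ((add_le_add h1 h2).trans ?_)
  rw [← ENNReal.ofReal_add (by positivity) (by positivity)]
  refine ENNReal.ofReal_le_ofReal ?_
  have h3 : (h * Real.sqrt (1 - t)) ^ 2 ≤ h ^ 2 := pow_le_pow_left₀ hm.1 hle 2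
  nlinarith [mul_le_mul_of_nonneg_left h3 hC₂.le, mul_nonneg hC₁.le (sq_nonneg h),
    mul_nonneg hC₂.le (sq_nonneg B)]

end

end Crest.Agent.R086.K
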