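import Crest.Agent.R086.K.Lin

open MeasureTheory Set Filter Topology
open scoped ContDiff ComplexConjugate ENNReal
open Crest.AnalysisR.PDE.NLS

namespace Crest.Agent.R086.K

open Crest.Agent.R086.E

noncomputable section

/-! # The open set of data -/

variable {n : ℕ} {b : ℝ} {q : ℝ → ℂ}

/-- the set of data -/
def Data (n : ℕ) (b : ℝ) (q : ℝ → ℂ) (k : ℕ) (τ δ : ℝ) : Set (R12 → ℂ) :=
  {v | IsSmoothPeriodic v ∧ nrm k (Real.sqrt τ)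
    (fun y => Zs n b τ 0 0 v y - UU n b q (Real.sqrt τ) 0 y) < ENNReal.ofReal δ}

/-- `v = Zs τ⁻¹ 0 0 (U_{√τ} 0)`; `Zs_Zs`, `Zs_one`, `nrm_zero`, `per_Zs`, `per_one_iff` -/
theorem data_nonempty (hU : UUStmt) (hq : Prof n b q) (k : ℕ) {τ δ : ℝ} (hτ : 0 < τ) (hδ : 0 < δ) :
    (Data n b q k τ δ).Nonempty := by
  have hs : 0 < Real.sqrt τ := Real.sqrt_pos.2 hτ
  refine ⟨Zs n b τ⁻¹ 0 0 (UU n b q (Real.sqrt τ) 0), ⟨contDiff_Zs n b _ _ _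
    (contDiff_UU hU hq _ zero_lt_one), ?_⟩, ?_⟩
  · have h1 := per_Zs n b (inv_pos.2 hτ) 0 0 ((hU n b q hq).2.1 (Real.sqrt τ) 0)
    rw [Real.sqrt_inv, mul_inv_cancel₀ hs.ne'] at h1
    exact per_one_iff.1 h1
  · rw [Zs_Zs hτ (inv_pos.2 hτ)]
    simp only [mul_inv_cancel₀ hτ.ne', smul_zero, add_zero, Zs_one,
      sub_self, nrm_zero]
    exact ENNReal.ofReal_pos.2 hδ

/-- `TorusStmt` part 1, `nrm_add_le`, `Zs_sub` -/
theorem data_open (hU : UUStmt) (hT : TorusStmt) (hq : Prof n b q) (k : ℕ) {τ δ : ℝ} (hτ : 0 < τ) :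
    ∀ u₀ ∈ Data n b q k τ δ, ∃ ε : ℝ, 0 < ε ∧ ∀ v : R12 → ℂ, IsSmoothPeriodic v →
      sobolevDistSq k v u₀ < ε → v ∈ Data n b q k τ δ := by
  intro u₀ hu₀
  obtain ⟨C, hC, hT1⟩ := hT.1 n b k τ hτ
  obtain ⟨r, hr0, hr1⟩ := ENNReal.lt_iff_exists_add_pos_lt.1 hu₀.2
  have hr : (0 : ℝ) < r := by exact_mod_cast hr0
  refine ⟨(r / C) ^ 2, by positivity, fun v hv hvu => ⟨hv, ?_⟩⟩
  have hk : ∀ {f : R12 → ℂ}, ContDiff ℝ ∞ f → ContDiff ℝ k f := fun hf =>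
    hf.of_le (by exact_mod_cast le_top)
  have h1 : (fun y => Zs n b τ 0 0 v y - UU n b q (Real.sqrt τ) 0 y) = fun y =>
      (Zs n b τ 0 0 u₀ y - UU n b q (Real.sqrt τ) 0 y) + Zs n b τ 0 0 (fun y => v y - u₀ y) y := by
    funext y
    simp only [Zs]
    ring
  have h2 : Real.sqrt (sobolevDistSq k v u₀) ≤ r / C :=
    Real.sqrt_le_iff.2 ⟨by positivity, hvu.le⟩
  have h3 : C * Real.sqrt (sobolevDistSq k v u₀) ≤ r := by
    rw [le_div_iff₀ hC] at h2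
    linarith
  rw [h1]
  refine lt_of_le_of_lt (nrm_add_le _ (hk ((contDiff_Zs n b _ _ _ hu₀.1.1).sub
    (contDiff_UU hU hq _ zero_lt_one))) (hk (contDiff_Zs n b _ _ _ (hv.1.sub hu₀.1.1)))) ?_
  refine lt_of_le_of_lt (add_le_add le_rfl ((hT1 v u₀ hv hu₀.1).trans ?_)) hr1
  rw [← ENNReal.ofReal_coe_nnreal]
  exact ENNReal.ofReal_le_ofReal h3

end

end Crest.Agent.R086.K
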