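import Crest.Agent.R086.K.Key
import Crest.Agent.R086.K.ChainA
import Crest.Agent.R086.K.ChainB
import Crest.Agent.R086.K.Class
import Crest.Agent.R086.K.Open

open MeasureTheory Set Filter Topology
open scoped ContDiff ComplexConjugate ENNReal
open Crest.AnalysisR.PDE.NLS

namespace Crest.Agent.R086.K

open Crest.Agent.R086.E

/-! # Part K: final statements (`keyS` is in `K/Key.lean`) -/

theorem blow {n : ℕ} {b : ℝ} {q : ℝ → ℂ} (hU : UUStmt) (hT : TorusStmt) (hK : KeyStmt)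
    (hq : Prof n b q) (hMS : MS n b q) : BlowStmt n := by
  obtain ⟨k, hk, τ₁, δ₀, C, hτ₁, hτ₁', hδ₀, hC, hK⟩ := hK n b q hq hMS
  replace hK : KeyAt n b q k τ₁ δ₀ C := hK
  obtain ⟨δ, hδ, hδ1, hδ2⟩ : ∃ δ : ℝ, 0 < δ ∧ δ ≤ δ₀ ∧ C * δ ≤ 1 / 2 :=
    ⟨min δ₀ (1 / (2 * C)), lt_min hδ₀ (by positivity), min_le_left _ _, by
      calc C * min δ₀ (1 / (2 * C)) ≤ C * (1 / (2 * C)) := by gcongr; exact min_le_right _ _
        _ = 1 / 2 := by field_simp⟩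
  have hτ : 0 < δ ^ 2 := by positivity
  refine ⟨k, by omega, Data n b q k (δ ^ 2) δ, data_nonempty hU hq k hτ hδ, fun v hv => hv.1,
    data_open hU hT hq k hτ, fun u₀ hu₀ => ?_⟩
  obtain ⟨t, τ, T, x, ϑ, u, hch, hu⟩ := exists_chain hq.npos hτ₁ hτ₁' hC hK hδ1 hδ2 (u₀ := u₀)
    (τ₀ := δ ^ 2) ⟨le_rfl, hτ, (Real.sqrt_sq hδ.le).le,
      sol_point hu₀.1.1 (per_one_iff.2 hu₀.1.2), hu₀.2.le⟩
  obtain ⟨Ti, h1, h2, h3, h4⟩ := hch.time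
  obtain ⟨xs, h5⟩ := hch.point
  refine ⟨Ti, hch.t0 ▸ h2 0, u, classical h3 hch.sol, hu, xs, ‖q 0‖, norm_pos_iff.2 hq.ne0, ?_⟩
  have e : 1 / (((2 * n + 1 : ℕ) : ℝ) - 1) = aa n := by
    unfold aa
    push_cast
    ring
  rw [e]
  exact hch.rate hq h1 h2 h3 h4 h5

end Crest.Agent.R086.K
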