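import Crest.Agent.R086.K.Zs

open MeasureTheory Set Filter Topology
open scoped ContDiff ComplexConjugate ENNReal
open Crest.AnalysisR.PDE.NLS

namespace Crest.Agent.R086.K

open Crest.Agent.R086.E

noncomputable section

/-! # Algebra of `Sol` -/

variable {n : ℕ} {b h : ℝ} {w : ℝ → R12 → ℂ}

theorem sol_mono {J J' : Set ℝ} (hw : Sol n h J w) (hJ : J' ⊆ J) : Sol n h J' w := by
  exact ⟨fun k => ck_subset (hw.reg k) hJ, fun t ht => hw.per t (hJ ht),
    fun t ht y => (hw.eqn t (hJ ht) y).mono hJ⟩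

theorem sol_congr {J : Set ℝ} {w' : ℝ → R12 → ℂ} (hw : Sol n h J w) (he : ∀ t ∈ J, w' t = w t) :
    Sol n h J w' := by
  refine ⟨fun k => ck_congr (hw.reg k) fun t ht y => by rw [he t ht], fun t ht => ?_,
    fun t ht y => ?_⟩
  · rw [he t ht]
    exact hw.per t ht
  · rw [he t ht]
    exact (hw.eqn t ht y).congr_of_mem (fun s hs => by rw [he s hs]) ht

theorem sol_smooth {J : Set ℝ} (hw : Sol n h J w) {t : ℝ} (ht : t ∈ J) : ContDiff ℝ ∞ (w t) := by
  exact contDiff_infty.2 fun k => (hw.reg k).diff t ht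

/-- `HasFDerivWithinAt.singleton`, `ck_space` -/
theorem sol_point {f : R12 → ℂ} (hf : ContDiff ℝ ∞ f) (hp : Per h f) :
    Sol n h (Icc 0 0) (fun _ => f) := by
  refine ⟨fun k => ck_space (contDiff_infty.1 hf k), fun _ _ => hp, fun t _ y => ?_⟩
  rw [Icc_self]
  exact hasDerivWithinAt_iff_hasFDerivWithinAt.2 HasFDerivWithinAt.singleton

/-- `scale_iteratedFDeriv_affine`, `scale_iteratedFDeriv_const_mul` -/
theorem ck_rescale {k : ℕ} {J J' : Set ℝ} (hw : Ck k J w) (c : ℂ) (l t₀ τ : ℝ) (x : R12)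
    (hJ : ∀ s ∈ J', t₀ + τ * s ∈ J) : Ck k J' (fun s y => c * w (t₀ + τ * s) (x + l • y)) := by
  refine ⟨fun s hs => contDiff_const.mul (scale_contDiff_affine (hw.diff _ (hJ s hs)) l x),
    fun j hj => ?_⟩
  have h1 : ContinuousOn (fun p : ℝ × R12 => iteratedFDeriv ℝ j (w (t₀ + τ * p.1)) (x + l • p.2))
      (J' ×ˢ univ) :=
    (hw.cont j hj).comp (f := fun p : ℝ × R12 => (t₀ + τ * p.1, x + l • p.2)) (by fun_prop)
      fun p hp => ⟨hJ _ hp.1, mem_univ _⟩
  refine ((h1.const_smul (l ^ j)).const_smul c).congr fun p hp => ?_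
  have h2 : ContDiff ℝ j (w (t₀ + τ * p.1)) := (hw.diff _ (hJ _ hp.1)).of_le (by exact_mod_cast hj)
  simp only [Pi.smul_apply]
  rw [scale_iteratedFDeriv_const_mul (scale_contDiff_affine h2 l x), scale_iteratedFDeriv_affine h2]

/-- chain rule in `s`, `lap_affine`, `NL_mul`, `norm_fac_pow`, `per_Zs` -/
theorem sol_rescale (hn : 1 ≤ n) {J J' : Set ℝ} (hw : Sol n h J w) {τ : ℝ} (hτ : 0 < τ) (t₀ : ℝ)
    (x : R12) (ϑ : ℝ) (hJ : ∀ s ∈ J', t₀ + τ * s ∈ J) :
    Sol n (h * Real.sqrt τ) J' (fun s => Zs n b τ x ϑ (w (t₀ + τ * s))) := by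
  refine ⟨fun k => ck_rescale (hw.reg k) _ _ t₀ τ x hJ,
    fun s hs => per_Zs n b hτ x ϑ (hw.per _ (hJ s hs)), fun s hs y => ?_⟩
  set c : ℂ := Complex.exp (-Complex.I * ϑ) * cp τ ((aa n : ℂ) - Complex.I * b) with hc
  have h1 : HasDerivWithinAt (fun s : ℝ => t₀ + τ * s) τ J' s := by
    simpa using ((hasDerivAt_id s).const_mul τ).const_add t₀ |>.hasDerivWithinAt
  have h2 := ((hw.eqn _ (hJ s hs) (x + Real.sqrt τ • y)).scomp s h1 hJ).const_mul c
  have h3 : ContDiff ℝ 2 (w (t₀ + τ * s)) := (hw.reg 2).diff _ (hJ s hs)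
  have e1 : lap (Zs n b τ x ϑ (w (t₀ + τ * s))) y = c * τ * lap (w (t₀ + τ * s)) (x + Real.sqrt τ • y) := by
    have := lap_affine h3 c (Real.sqrt τ) x y
    rwa [← Complex.ofReal_pow, Real.sq_sqrt hτ.le] at this
  have e2 : NL n (Zs n b τ x ϑ (w (t₀ + τ * s)) y) =
      τ * c * NL n (w (t₀ + τ * s) (x + Real.sqrt τ • y)) := by
    have := NL_mul (n := n) c (w (t₀ + τ * s) (x + Real.sqrt τ • y))
    rwa [hc, norm_fac_pow hn hτ] at this
  rw [e1, e2]
  refine h2.congr_deriv ?_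
  rw [Complex.real_smul]; ring

theorem helper18_union {J J' : Set ℝ} (hJ : IsClosed J) (hJ' : IsClosed J') (hw : Sol n h J w)
    (hw' : Sol n h J' w) : Sol n h (J ∪ J') w := by
  refine ⟨fun k => ⟨fun t ht => ht.elim ((hw.reg k).diff t) ((hw'.reg k).diff t), fun j hj => ?_⟩,
    fun t ht => ht.elim (hw.per t) (hw'.per t), fun t _ y => HasDerivWithinAt.union ?_ ?_⟩
  · rw [union_prod]
    exact ((hw.reg k).cont j hj).union_of_isClosed ((hw'.reg k).cont j hj)
      (hJ.prod isClosed_univ) (hJ'.prod isClosed_univ)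
  · by_cases h1 : t ∈ J
    · exact hw.eqn t h1 y
    · exact hasDerivWithinAt_iff_hasFDerivWithinAt.2
        (HasFDerivWithinAt.of_notMem_closure (by rwa [hJ.closure_eq]))
  · by_cases h1 : t ∈ J'
    · exact hw'.eqn t h1 y
    · exact hasDerivWithinAt_iff_hasFDerivWithinAt.2
        (HasFDerivWithinAt.of_notMem_closure (by rwa [hJ'.closure_eq]))

/-- `Icc a c = Icc a m ∪ Icc m c`; `ContinuousOn.union_of_isClosed`, `HasDerivWithinAt.union`
(at a time outside the closed set `Icc m c` use `HasFDerivWithinAt.of_notMem_closure`-type lemmas or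
`mono_of_mem_nhdsWithin`) -/
theorem sol_glue {a m c : ℝ} {w₁ w₂ : ℝ → R12 → ℂ} (ham : a ≤ m) (hmc : m ≤ c)
    (h₁ : Sol n h (Icc a m) w₁) (h₂ : Sol n h (Icc m c) w₂) (he : w₁ m = w₂ m) :
    Sol n h (Icc a c) (fun t => if t ≤ m then w₁ t else w₂ t) := by
  rw [← Icc_union_Icc_eq_Icc ham hmc]
  refine helper18_union isClosed_Icc isClosed_Icc (sol_congr h₁ fun t ht => if_pos ht.2)
    (sol_congr h₂ fun t ht => ?_)
  split_ifs with h1
  · obtain rfl : t = m := le_antisymm h1 ht.1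
    exact he
  · rfl

end

end Crest.Agent.R086.K
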