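import Crest.Agent.R086.K.Defs
import Crest.Agent.R086.C.Zs

open MeasureTheory Set Filter Topology
open scoped ContDiff ComplexConjugate ENNReal
open Crest.AnalysisR.PDE.NLS

namespace Crest.Agent.R086.K

open Crest.Agent.R086.E

noncomputable section

/-! # Algebra of the rescaling `Zs` -/

variable {n : ℕ} {b : ℝ} {q : ℝ → ℂ}

theorem Zs_Zs {τ τ' : ℝ} (hτ : 0 < τ) (hτ' : 0 < τ') (x x' : R12) (ϑ ϑ' : ℝ) (f : R12 → ℂ) :
    Zs n b τ x ϑ (Zs n b τ' x' ϑ' f) = Zs n b (τ * τ') (x' + Real.sqrt τ' • x) (ϑ + ϑ') f := by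
  exact C.Zs_Zs hτ hτ' x x' ϑ ϑ' f

theorem Zs_one (f : R12 → ℂ) : Zs n b 1 0 0 f = f := by
  exact C.Zs_one f

theorem Zs_sub (τ : ℝ) (x : R12) (ϑ : ℝ) (f g : R12 → ℂ) :
    Zs n b τ x ϑ (fun y => f y - g y) = fun y => Zs n b τ x ϑ f y - Zs n b τ x ϑ g y := by
  exact C.Zs_sub τ x ϑ f g

theorem Zs_const_mul (τ : ℝ) (x : R12) (ϑ : ℝ) (c : ℂ) (f : R12 → ℂ) :
    Zs n b τ x ϑ (fun y => c * f y) = fun y => c * Zs n b τ x ϑ f y := by
  exact C.Zs_const_mul τ x ϑ c f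

theorem norm_Zs {τ : ℝ} (hτ : 0 < τ) (x : R12) (ϑ : ℝ) (f : R12 → ℂ) (y : R12) :
    ‖Zs n b τ x ϑ f y‖ = τ ^ aa n * ‖f (x + Real.sqrt τ • y)‖ := by
  exact C.norm_Zs hτ x ϑ f y

/-- self-similarity (`PP_scale`) -/
theorem Zs_UU (h : ℝ) {t : ℝ} (ht : t < 1) :
    Zs n b (1 - t) 0 0 (UU n b q h t) = UU n b q (h * Real.sqrt (1 - t)) 0 := by
  exact C.Zs_UU h ht

theorem norm_UU (h : ℝ) {t : ℝ} (ht : t < 1) (y : R12) :
    ‖UU n b q h t y‖ = (1 - t) ^ (-aa n) * ‖q (PP h y / (4 * (1 - t)))‖ := by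
  rw [UU, norm_mul, norm_cp (sub_pos.2 ht)]
  simp

theorem h30_normpow (n : ℕ) (u : ℂ) : ((‖u‖ ^ (2 * n) : ℝ) : ℂ) = u ^ n * (conj u) ^ n := by
  rw [← mul_pow, Complex.mul_conj, Complex.normSq_eq_norm_sq, pow_mul]
  push_cast
  rfl

theorem NL_eq (u : ℂ) : NL n u = ((‖u‖ ^ (2 * n) : ℝ) : ℂ) * u := by
  rw [h30_normpow, NL]
  ring

theorem NL_mul (c u : ℂ) : NL n (c * u) = ((‖c‖ ^ (2 * n) : ℝ) : ℂ) * c * NL n u := by
  rw [h30_normpow, NL, NL, map_mul]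
  ring

theorem Quad_mul (hn : 1 ≤ n) (c u z : ℂ) :
    Quad n (c * u) (c * z) = ((‖c‖ ^ (2 * n) : ℝ) : ℂ) * c * Quad n u z := by
  obtain ⟨m, rfl⟩ := Nat.exists_eq_add_of_le' hn
  rw [Quad, Quad, ← mul_add, NL_mul, NL_mul, h30_normpow]
  simp only [V1, V2, map_mul, Nat.add_sub_cancel]
  ring

/-- the factor of `Zs` has `|c|^{2n} = τ` -/
theorem norm_fac_pow (hn : 1 ≤ n) {τ : ℝ} (hτ : 0 < τ) (ϑ : ℝ) :
    ‖Complex.exp (-Complex.I * ϑ) * cp τ ((aa n : ℂ) - Complex.I * b)‖ ^ (2 * n) = τ := by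
  have hn0 : (n : ℝ) ≠ 0 := by exact_mod_cast (by omega : n ≠ 0)
  rw [cp, ← Complex.exp_add, Complex.norm_exp, ← Real.exp_nat_mul]
  conv_rhs => rw [← Real.exp_log hτ]
  congr 1
  simp only [Complex.add_re, Complex.mul_re, Complex.neg_re, Complex.neg_im, Complex.sub_re,
    Complex.sub_im, Complex.mul_im, Complex.I_re, Complex.I_im, Complex.ofReal_re,
    Complex.ofReal_im, aa]
  push_cast
  field_simp
  ring

theorem nrmT_zero (k : ℕ) (h : ℝ) (f : R12 → ℂ) : nrmT n b k h 0 f = nrm k h f := by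
  exact C.nrmT_zero_time k h f

theorem nrmT_const_mul {k : ℕ} (h t : ℝ) (c : ℂ) {f : R12 → ℂ} (hf : ContDiff ℝ k f) :
    nrmT n b k h t (fun y => c * f y) = ENNReal.ofReal ‖c‖ * nrmT n b k h t f := by
  exact C.nrmT_const_mul h t c hf

/-- the source in similarity variables -/
theorem Zs_Src (hn : 1 ≤ n) (h : ℝ) (w : ℝ → R12 → ℂ) {t : ℝ} (ht : t < 1) :
    Zs n b (1 - t) 0 0 (fun y => ((1 - t : ℝ) : ℂ) * Src n b q h 1 w t y) = fun y =>
      Quad n (UU n b q (h * Real.sqrt (1 - t)) 0 y) (Zs n b (1 - t) 0 0 (Pert n b q h 1 w t) y)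
        - Err q (h * Real.sqrt (1 - t)) y := by
  have hτ : 0 < 1 - t := by linarith
  funext y
  have h1 := norm_fac_pow (b := b) hn hτ 0
  have h2 : Complex.exp (-Complex.I * (0 : ℝ)) * cp (1 - t) ((aa n : ℂ) - Complex.I * b) *
      ((1 - t : ℝ) : ℂ) * cp (1 - t) (-(aa n : ℂ) + Complex.I * b - 1) = 1 := by
    have h3 : ((1 - t : ℝ) : ℂ) = Complex.exp ((Real.log (1 - t) : ℝ) : ℂ) := by
      rw [← Complex.ofReal_exp, Real.exp_log hτ]
    rw [cp, cp, h3, ← Complex.exp_add, ← Complex.exp_add, ← Complex.exp_add]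
    refine Eq.trans (congrArg Complex.exp ?_) Complex.exp_zero
    rw [Complex.ofReal_zero]
    ring
  rw [← Zs_UU h ht]
  simp only [Zs, Src, Pert, ErrT, Complex.ofReal_one, one_mul, zero_add, smul_smul,
    inv_mul_cancel₀ (Real.sqrt_pos.2 hτ).ne', one_smul]
  rw [Quad_mul hn, h1]
  linear_combination (-Err q (h * Real.sqrt (1 - t)) y) * h2

theorem Pert_eq (h c : ℝ) (w : ℝ → R12 → ℂ) (t : ℝ) :
    Pert n b q h c w t = fun y => (c : ℂ) * Pert n b q h 1 w t y := by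
  funext y
  simp [Pert]

theorem Src_eq (h c : ℝ) (w : ℝ → R12 → ℂ) (t : ℝ) (d : ℂ) :
    (fun y => d * Src n b q h c w t y) = fun y => (c : ℂ) * (d * Src n b q h 1 w t y) := by
  funext y
  simp only [Src, Complex.ofReal_one]
  ring

theorem Pert_one (h : ℝ) (w : ℝ → R12 → ℂ) (t : ℝ) :
    Pert n b q h 1 w t = fun y => w t y - UU n b q h t y := by
  funext y
  simp [Pert]

theorem per_one_iff {v : R12 → ℂ} :
    Per 1 v ↔ ∀ (x : R12) (i : Fin 12), v (x + EuclideanSpace.single i (2 * Real.pi)) = v x := by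
  simp [Per]

end

end Crest.Agent.R086.K
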